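import Vale.Agent.P167.H411.Q.Bump
import Vale.Agent.P167.H542.Dat0
import Vale.Agent.P167.H760.Fr
import Vale.Agent.P167.H135.RotEnv

/-!
# P167, general `q`, block Q-ND / CONT: cell masses of bumps at flat points in a frame

`F0 χ r w`: the mass of the cell of the site `w` (mesh `1`) of the bump `χ (· / r) / r ^ 2`. The cell
masses of `fb χ ν c η` at mesh `1 / n` near a flat point are `F0 χ (n η)` up to `O (n ^ (-3))`.
-/

open Set Metric Filter Topology MeasureTheory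
open scoped ComplexConjugate ContDiff

namespace Vale.Agent.P167.H208.SH

open Vale.Agent.P167.CA (cms cl cs mem_cl cms_eq measurableSet_cl)
open Vale.Agent.P167.H542.Dt (vol_cl cms_ne cms_abs_le)
open Vale.Agent.P167.H411.Q (fb)
open Vale.Agent.P167.H411.B7 (Shp)
open Vale.Agent.P167.E6 (pt)

/-- The cell masses of the bump of scale `r` at the origin. -/
noncomputable def F0 (χ : ℂ → ℝ) (r : ℝ) (w : ℤ × ℤ) : ℝ :=
  cms (fun u => χ (u / r) / r ^ 2) (1 / ((1 : ℕ) : ℝ)) w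

theorem near_cl {n : ℕ} (hn : 0 < n) {s : ℤ × ℤ} {z : ℂ} (hz : z ∈ cl n s) :
    ‖(n : ℂ) * z - pt s‖ ≤ 2 := by
  have hn' : (0 : ℝ) < n := by exact_mod_cast hn
  have h1 := CA.norm_cs hn z
  rw [mem_cl.1 hz, norm_sub_rev] at h1
  have e : (n : ℂ) * z - pt s = n * (z - pt s / n) := by
    have : (n : ℂ) ≠ 0 := by exact_mod_cast hn.ne'
    field_simp
  rw [e, norm_mul, Complex.norm_natCast]
  calc (n : ℝ) * ‖z - pt s / n‖ ≤ n * (2 / n) := mul_le_mul_of_nonneg_left h1 hn'.le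
    _ = 2 := by field_simp

/-- The cell mass of a function which is almost constant on the cell. -/
theorem cms_near {f : ℂ → ℝ} (hf : Integrable f) {n : ℕ} (hn : 0 < n) {s : ℤ × ℤ} {v δ : ℝ}
    (h : ∀ z ∈ cl n s, |f z - v| ≤ δ) : |cms f (1 / n) s - v / n ^ 2| ≤ δ / n ^ 2 := by
  have hfin : volume (cl n s) < ⊤ := by rw [vol_cl hn]; exact ENNReal.ofReal_lt_top
  have hv : volume.real (cl n s) = (1 / (n : ℝ)) ^ 2 := by
    rw [Measure.real, vol_cl hn, ENNReal.toReal_ofReal (by positivity)]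
  have h1 := norm_setIntegral_le_of_norm_le_const (f := fun z => f z - v) hfin h
  rw [hv, integral_sub hf.integrableOn (integrableOn_const hfin.ne), setIntegral_const, hv,
    Real.norm_eq_abs, smul_eq_mul] at h1
  rw [cms_eq]
  have e1 : v / (n : ℝ) ^ 2 = (1 / (n : ℝ)) ^ 2 * v := by ring
  have e2 : δ / (n : ℝ) ^ 2 = δ * (1 / (n : ℝ)) ^ 2 := by ring
  rw [e1, e2]
  exact h1

section

variable {χ : ℂ → ℝ}

theorem int_fb (hc : Continuous χ) (hs : HasCompactSupport χ) {ν : ℂ} (hν : ‖ν‖ = 1) (c : ℂ) {η : ℝ}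
    (hη : 0 < η) : Integrable (fb χ ν c η) := by
  have hη' : (η : ℂ) ≠ 0 := by exact_mod_cast hη.ne'
  refine Continuous.integrable_of_hasCompactSupport ?_ ?_
  · unfold fb
    exact (hc.comp (by fun_prop)).div_const _
  · obtain ⟨R, hR⟩ := hs.isCompact.isBounded.subset_closedBall 0
    refine HasCompactSupport.of_support_subset_isCompact (isCompact_closedBall c (R * η)) ?_
    intro z hz
    have h1 : χ (Complex.I * conj ν * (z - c) / η) ≠ 0 := fun h0 => hz (by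
      unfold fb
      rw [h0, zero_div])
    have h2 := hR (subset_tsupport _ h1)
    rw [mem_closedBall_zero_iff, norm_div, norm_mul, norm_mul, Complex.norm_I, RCLike.norm_conj, hν,
      one_mul, one_mul, Complex.norm_real, Real.norm_eq_abs, abs_of_pos hη, div_le_iff₀ hη] at h2
    rwa [mem_closedBall_iff_norm]

theorem int_f0 (hc : Continuous χ) (hs : HasCompactSupport χ) {r : ℝ} (hr : 0 < r) :
    Integrable (fun u : ℂ => χ (u / r) / r ^ 2) := by
  have h := int_fb hc hs (ν := Complex.I) Complex.norm_I 0 hr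
  have e : (fun u : ℂ => χ (u / r) / r ^ 2) = fb χ Complex.I 0 r := by
    funext u
    unfold fb
    rw [Complex.conj_I, sub_zero, mul_neg, Complex.I_mul_I, neg_neg, one_mul]
  rw [e]
  exact h

/-- **Comparison of the cell masses.** -/
theorem cms_cmp (hc : Continuous χ) (hs : HasCompactSupport χ) {L : ℝ}
    (hL : ∀ u v, |χ u - χ v| ≤ L * ‖u - v‖) (hL0 : 0 ≤ L) {ν : ℂ} (hν : ‖ν‖ = 1) {c : ℂ} {η : ℝ}
    (hη : 0 < η) {n : ℕ} (hn : 0 < n) {K : ℝ} {s w : ℤ × ℤ}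
    (h : ‖Complex.I * conj ν * (pt s - n * c) - pt w‖ ≤ K) :
    |cms (fb χ ν c η) (1 / n) s - F0 χ (n * η) w| ≤ L * (K + 4) / (n * η) ^ 3 := by
  have hn' : (0 : ℝ) < n := by exact_mod_cast hn
  have hnC : (n : ℂ) ≠ 0 := by exact_mod_cast hn.ne'
  have hηC : (η : ℂ) ≠ 0 := by exact_mod_cast hη.ne'
  have hr : 0 < (n : ℝ) * η := by positivity
  obtain ⟨v, hv⟩ : ∃ v, v = χ (pt w / ((n * η : ℝ) : ℂ)) := ⟨_, rfl⟩
  have h1 : |cms (fb χ ν c η) (1 / n) s - v / η ^ 2 / n ^ 2| ≤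
      L * ((K + 2) / (n * η)) / η ^ 2 / n ^ 2 := by
    refine cms_near (int_fb hc hs hν c hη) hn fun z hz => ?_
    unfold fb
    rw [← sub_div, abs_div, abs_of_pos (by positivity : (0 : ℝ) < η ^ 2), hv]
    refine div_le_div_of_nonneg_right ((hL _ _).trans (mul_le_mul_of_nonneg_left ?_ hL0))
      (by positivity)
    have e : Complex.I * conj ν * (z - c) / η - pt w / ((n * η : ℝ) : ℂ) =
        (Complex.I * conj ν * (n * z - pt s) + (Complex.I * conj ν * (pt s - n * c) - pt w)) /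
          ((n * η : ℝ) : ℂ) := by
      push_cast
      field_simp
      ring
    rw [e, norm_div, Complex.norm_real, Real.norm_eq_abs, abs_of_pos hr]
    refine div_le_div_of_nonneg_right ((norm_add_le _ _).trans ?_) hr.le
    rw [norm_mul, norm_mul, Complex.norm_I, RCLike.norm_conj, hν, one_mul, one_mul]
    linarith [near_cl hn hz]
  have h2 : |F0 χ (n * η) w - v / (n * η) ^ 2 / ((1 : ℕ) : ℝ) ^ 2| ≤
      L * (2 / (n * η)) / (n * η) ^ 2 / ((1 : ℕ) : ℝ) ^ 2 := by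
    refine cms_near (int_f0 hc hs hr) one_pos fun z hz => ?_
    rw [← sub_div, abs_div, abs_of_pos (by positivity : (0 : ℝ) < (n * η) ^ 2), hv]
    refine div_le_div_of_nonneg_right ((hL _ _).trans (mul_le_mul_of_nonneg_left ?_ hL0))
      (by positivity)
    rw [← sub_div, norm_div, Complex.norm_real, Real.norm_eq_abs, abs_of_pos hr]
    refine div_le_div_of_nonneg_right ?_ hr.le
    have h3 := near_cl one_pos hz
    rwa [Nat.cast_one, one_mul] at h3
  have e3 : v / η ^ 2 / (n : ℝ) ^ 2 = v / (n * η) ^ 2 / ((1 : ℕ) : ℝ) ^ 2 := by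
    rw [Nat.cast_one]
    field_simp
  rw [e3] at h1
  have e4 : L * (K + 4) / (n * η) ^ 3 = L * ((K + 2) / (n * η)) / η ^ 2 / n ^ 2 +
      L * (2 / (n * η)) / (n * η) ^ 2 / ((1 : ℕ) : ℝ) ^ 2 := by
    rw [Nat.cast_one]
    field_simp
    ring
  rw [e4]
  have h4 := abs_sub_le (cms (fb χ ν c η) (1 / n) s) (v / (n * η) ^ 2 / ((1 : ℕ) : ℝ) ^ 2)
    (F0 χ (n * η) w)
  rw [abs_sub_comm (v / ((n : ℝ) * η) ^ 2 / ((1 : ℕ) : ℝ) ^ 2)] at h4
  linarith

/-- A shape is Lipschitz. -/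
theorem shp_lip (h : Shp Complex.I χ) : ∃ L : ℝ, 0 ≤ L ∧ ∀ u v, |χ u - χ v| ≤ L * ‖u - v‖ := by
  obtain ⟨C, hC⟩ := ContDiff.lipschitzWith_of_hasCompactSupport h.compact h.smooth (by simp)
  refine ⟨C, C.2, fun u v => ?_⟩
  have := hC.dist_le_mul u v
  rwa [Real.dist_eq, dist_eq_norm] at this

/-- A shape is bounded. -/
theorem shp_bd (h : Shp Complex.I χ) : ∃ B : ℝ, 0 < B ∧ ∀ u, |χ u| ≤ B := by
  obtain ⟨M, hM⟩ := h.smooth.continuous.bounded_above_of_compact_support h.compact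
  exact ⟨max M 1, by positivity, fun x => (hM x).trans (le_max_left _ _)⟩

/-- The support of a shape. -/
theorem shp_supp (h : Shp Complex.I χ) : ∃ d : ℝ, 0 < d ∧ ∀ u, χ u ≠ 0 → ‖u‖ ≤ 1 ∧ d ≤ u.im := by
  have hk : IsCompact (tsupport χ) := h.compact
  have him : ∀ u ∈ tsupport χ, 0 < u.im := by
    intro u hu
    have h1 : 0 < (u * conj Complex.I).re := (h.supp hu).2
    rw [Complex.conj_I] at h1
    simpa using h1
  have hn1 : ∀ u ∈ tsupport χ, ‖u‖ ≤ 1 := fun u hu => by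
    have := (h.supp hu).1
    rwa [mem_closedBall_zero_iff] at this
  rcases (tsupport χ).eq_empty_or_nonempty with he | he
  · refine ⟨1, one_pos, fun u hu => ?_⟩
    have := subset_tsupport _ hu
    rw [he] at this
    exact this.elim
  · obtain ⟨x, hx, hmin⟩ := hk.exists_isMinOn he Complex.continuous_im.continuousOn
    exact ⟨x.im, him x hx, fun u hu => ⟨hn1 u (subset_tsupport _ hu), hmin (subset_tsupport _ hu)⟩⟩

theorem F0_nonneg (h : Shp Complex.I χ) (r : ℝ) (w : ℤ × ℤ) : 0 ≤ F0 χ r w := by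
  unfold F0
  rw [cms_eq]
  exact setIntegral_nonneg (measurableSet_cl _ _) fun u _ => div_nonneg (h.nonneg _) (by positivity)

theorem F0_le {B : ℝ} (hB : ∀ u, |χ u| ≤ B) {r : ℝ} (hr : 0 < r) (w : ℤ × ℤ) :
    |F0 χ r w| ≤ B / r ^ 2 := by
  have h := cms_abs_le (f := fun u => χ (u / r) / r ^ 2) (M := B / r ^ 2) (fun z => ?_) one_pos w
  · have e : (((1 : ℕ) : ℝ)) ^ 2 = 1 := by norm_num
    rw [e, div_one] at h
    exact h
  · rw [abs_div, abs_of_pos (by positivity : (0 : ℝ) < r ^ 2)]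
    exact div_le_div_of_nonneg_right (hB _) (by positivity)

/-- The support of `F0`. -/
theorem F0_supp {d : ℝ} (hd : ∀ u, χ u ≠ 0 → ‖u‖ ≤ 1 ∧ d ≤ u.im) {r : ℝ} (hr : 0 < r) {w : ℤ × ℤ}
    (hw : F0 χ r w ≠ 0) : |(w.1 : ℝ)| ≤ r + 1 ∧ d * r ≤ w.2 ∧ (w.2 : ℝ) ≤ r + 1 := by
  obtain ⟨u, hu, h1⟩ := cms_ne hw
  have h2 : χ (u / r) ≠ 0 := fun h0 => h1 (by simp only [h0, zero_div])
  obtain ⟨h3, h4⟩ := hd _ h2
  rw [norm_div, Complex.norm_real, Real.norm_eq_abs, abs_of_pos hr, div_le_iff₀ hr, one_mul] at h3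
  rw [Complex.div_ofReal_im, le_div_iff₀ hr] at h4
  rw [mem_cl] at hu
  unfold CA.cs at hu
  have k1 : w.1 = ⌊u.re⌋ + 1 := by rw [← hu]; simp
  have k2 : w.2 = ⌊u.im⌋ + 1 := by rw [← hu]; simp
  have a1 := Int.floor_le u.re
  have a2 := Int.lt_floor_add_one u.re
  have a3 := Int.floor_le u.im
  have a4 := Int.lt_floor_add_one u.im
  have b1 := abs_le.1 ((Complex.abs_re_le_norm u).trans h3)
  have b2 := abs_le.1 ((Complex.abs_im_le_norm u).trans h3)
  rw [k1, k2]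
  push_cast
  refine ⟨abs_le.2 ⟨by linarith, by linarith⟩, by linarith, by linarith⟩

/-- **The total mass of `F0`.** -/
theorem F0_sum (h : Shp Complex.I χ) {r : ℝ} (hr : 0 < r) : ∑ᶠ w, F0 χ r w = 1 := by
  classical
  obtain ⟨d, hd0, hd⟩ := shp_supp h
  obtain ⟨N, hN⟩ : ∃ N : ℤ, r + 1 ≤ N := ⟨⌈r + 1⌉, Int.le_ceil _⟩
  obtain ⟨f, hf⟩ : ∃ f : ℂ → ℝ, f = fun u => χ (u / r) / r ^ 2 := ⟨_, rfl⟩
  have hfi : Integrable f := by
    rw [hf]; exact int_f0 h.smooth.continuous h.compact hr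
  have hbox : ∀ u, f u ≠ 0 → cs 1 u ∈ (Finset.Icc (-N) N ×ˢ Finset.Icc (-N) N : Finset (ℤ × ℤ)) := by
    intro u hu
    have h2 : χ (u / r) ≠ 0 := fun h0 => hu (by rw [hf]; simp only [h0, zero_div])
    obtain ⟨h3, h4⟩ := hd _ h2
    rw [norm_div, Complex.norm_real, Real.norm_eq_abs, abs_of_pos hr, div_le_iff₀ hr, one_mul] at h3
    have b1 := abs_le.1 ((Complex.abs_re_le_norm u).trans h3)
    have b2 := abs_le.1 ((Complex.abs_im_le_norm u).trans h3)
    have a1 := Int.floor_le u.re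
    have a2 := Int.lt_floor_add_one u.re
    have a3 := Int.floor_le u.im
    have a4 := Int.lt_floor_add_one u.im
    rw [Finset.mem_product, Finset.mem_Icc, Finset.mem_Icc]
    have k1 : (cs 1 u).1 = ⌊u.re⌋ + 1 := by unfold CA.cs; simp
    have k2 : (cs 1 u).2 = ⌊u.im⌋ + 1 := by unfold CA.cs; simp
    rw [k1, k2]
    refine ⟨⟨?_, ?_⟩, ?_, ?_⟩
    · have : (-N : ℝ) ≤ ⌊u.re⌋ + 1 := by linarith
      exact_mod_cast this
    · have : (⌊u.re⌋ + 1 : ℝ) ≤ N := by linarith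
      exact_mod_cast this
    · have : (-N : ℝ) ≤ ⌊u.im⌋ + 1 := by linarith
      exact_mod_cast this
    · have : (⌊u.im⌋ + 1 : ℝ) ≤ N := by linarith
      exact_mod_cast this
  have hsup : Function.support (F0 χ r) ⊆
      ((Finset.Icc (-N) N ×ˢ Finset.Icc (-N) N : Finset (ℤ × ℤ)) : Set (ℤ × ℤ)) := by
    intro w hw
    obtain ⟨u, hu, h1⟩ := cms_ne (show cms (fun u => χ (u / r) / r ^ 2) (1 / ((1 : ℕ) : ℝ)) w ≠ 0
      from hw)
    have h2 := hbox u (by rw [hf]; exact h1)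
    rwa [mem_cl.1 hu] at h2
  rw [finsum_eq_sum_of_support_subset _ hsup]
  have h5 : ∑ w ∈ (Finset.Icc (-N) N ×ˢ Finset.Icc (-N) N : Finset (ℤ × ℤ)), F0 χ r w =
      ∫ u in ⋃ w ∈ (Finset.Icc (-N) N ×ˢ Finset.Icc (-N) N : Finset (ℤ × ℤ)), cl 1 w, f u := by
    rw [integral_biUnion_finset]
    · refine Finset.sum_congr rfl fun w _ => ?_
      unfold F0
      rw [cms_eq, hf]
    · intro w _
      exact measurableSet_cl 1 w
    · intro w _ w' _ hne
      rw [Function.onFun, Set.disjoint_left]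
      intro x hx hx'
      rw [mem_cl] at hx hx'
      exact hne (hx.symm.trans hx')
    · intro w _
      exact hfi.integrableOn
  rw [h5, setIntegral_eq_integral_of_forall_compl_eq_zero]
  · rw [hf]
    have h6 := H411.B7.integral_scale χ 0 hr
    simp only [sub_zero] at h6
    rw [h6, h.mass]
  · intro x hx
    by_contra hne
    apply hx
    rw [mem_iUnion₂]
    exact ⟨cs 1 x, hbox x hne, mem_cl.2 rfl⟩

/-- The support of the cell masses of the bump near a flat point. -/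
theorem cms_supp {d : ℝ} (hd : ∀ u, χ u ≠ 0 → ‖u‖ ≤ 1 ∧ d ≤ u.im) {ν : ℂ} (hν : ‖ν‖ = 1) {c : ℂ}
    {η : ℝ} (hη : 0 < η) {n : ℕ} (hn : 0 < n) {s : ℤ × ℤ} (hs : cms (fb χ ν c η) (1 / n) s ≠ 0) :
    ‖Complex.I * conj ν * (pt s - n * c)‖ ≤ n * η + 2 ∧
      d * (n * η) - 2 ≤ (Complex.I * conj ν * (pt s - n * c)).im := by
  have hn' : (0 : ℝ) < n := by exact_mod_cast hn
  have hnC : (n : ℂ) ≠ 0 := by exact_mod_cast hn.ne'
  have hηC : (η : ℂ) ≠ 0 := by exact_mod_cast hη.ne'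
  have hr : 0 < (n : ℝ) * η := by positivity
  obtain ⟨z, hz, h1⟩ := cms_ne hs
  have h2 : χ (Complex.I * conj ν * (z - c) / η) ≠ 0 := fun h0 => h1 (by unfold fb; rw [h0, zero_div])
  obtain ⟨h3, h4⟩ := hd _ h2
  have hnear := near_cl hn hz
  have e : Complex.I * conj ν * (z - c) / η = (Complex.I * conj ν * (n * z - n * c)) /
      ((n * η : ℝ) : ℂ) := by
    push_cast
    field_simp
  rw [e, norm_div, Complex.norm_real, Real.norm_eq_abs, abs_of_pos hr, div_le_iff₀ hr, one_mul] at h3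
  rw [e, Complex.div_ofReal_im, le_div_iff₀ hr] at h4
  have e2 : Complex.I * conj ν * (pt s - n * c) = Complex.I * conj ν * (n * z - n * c) -
      Complex.I * conj ν * (n * z - pt s) := by ring
  have h5 : ‖Complex.I * conj ν * (n * z - pt s)‖ ≤ 2 := by
    rw [norm_mul, norm_mul, Complex.norm_I, RCLike.norm_conj, hν, one_mul, one_mul]
    exact hnear
  rw [e2]
  refine ⟨(norm_sub_le _ _).trans (by linarith), ?_⟩
  rw [Complex.sub_im]
  have h6 := abs_le.1 ((Complex.abs_im_le_norm (Complex.I * conj ν * (n * z - pt s))).trans h5)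
  linarith

end

/-! ### frames -/

/-- The inner normal of the frame `fr a ρ`. -/
noncomputable def nu (ρ : Fin 4) : ℂ := pt (E6.dir (ρ + 1))

theorem norm_nu (ρ : Fin 4) : ‖nu ρ‖ = 1 := by
  have : Complex.normSq (nu ρ) = 1 := by
    unfold nu pt E6.dir
    fin_cases ρ <;> simp [Complex.normSq_apply]
  rw [Complex.normSq_eq_norm_sq] at this
  exact (pow_eq_one_iff_of_nonneg (norm_nonneg _) two_ne_zero).1 this

theorem fr_pt (a : ℤ × ℤ) (ρ : Fin 4) (w : ℤ × ℤ) (x : ℂ) :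
    Complex.I * conj (nu ρ) * (pt ((H760.Tr.fr a ρ).S w) - x) =
      pt w + Complex.I * conj (nu ρ) * (pt a - x) := by
  rw [H760.Tr.fr_S]
  unfold nu pt E6.dir
  apply Complex.ext <;> fin_cases ρ <;> simp <;> ring

variable {χ : ℂ → ℝ}

/-- **Comparison of the cell masses in a frame.** -/
theorem fr_cmp (h : Shp Complex.I χ) : ∃ L : ℝ, 0 ≤ L ∧ ∀ (a : ℤ × ℤ) (ρ : Fin 4) (c : ℂ) (η : ℝ)
    (n : ℕ) (K : ℝ) (w : ℤ × ℤ), 0 < η → 0 < n → ‖pt a - n * c‖ ≤ K →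
    |cms (fb χ (nu ρ) c η) (1 / n) ((H760.Tr.fr a ρ).S w) - F0 χ (n * η) w| ≤
      L * (K + 4) / (n * η) ^ 3 := by
  obtain ⟨L, hL0, hL⟩ := shp_lip h
  refine ⟨L, hL0, fun a ρ c η n K w hη hn hK => ?_⟩
  refine cms_cmp h.smooth.continuous h.compact hL hL0 (norm_nu ρ) hη hn ?_
  rw [fr_pt, add_sub_cancel_left, norm_mul, norm_mul, Complex.norm_I, RCLike.norm_conj, norm_nu,
    one_mul, one_mul]
  exact hK

/-- **The support of the cell masses in a frame.** -/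
theorem fr_supp {d : ℝ} (hd : ∀ u, χ u ≠ 0 → ‖u‖ ≤ 1 ∧ d ≤ u.im) {a : ℤ × ℤ} {ρ : Fin 4} {c : ℂ}
    {η : ℝ} {n : ℕ} {K : ℝ} {w : ℤ × ℤ} (hη : 0 < η) (hn : 0 < n) (hK : ‖pt a - n * c‖ ≤ K)
    (hs : cms (fb χ (nu ρ) c η) (1 / n) ((H760.Tr.fr a ρ).S w) ≠ 0) :
    |(w.1 : ℝ)| ≤ n * η + K + 2 ∧ d * (n * η) - K - 2 ≤ w.2 ∧ (w.2 : ℝ) ≤ n * η + K + 2 := by
  obtain ⟨h1, h2⟩ := cms_supp hd (norm_nu ρ) hη hn hs
  rw [fr_pt] at h1 h2
  have h3 : ‖Complex.I * conj (nu ρ) * (pt a - n * c)‖ ≤ K := by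
    rw [norm_mul, norm_mul, Complex.norm_I, RCLike.norm_conj, norm_nu, one_mul, one_mul]
    exact hK
  obtain ⟨X, hX⟩ : ∃ X, X = Complex.I * conj (nu ρ) * (pt a - n * c) := ⟨_, rfl⟩
  rw [← hX] at h1 h2 h3
  have c1 := abs_le.1 ((Complex.abs_im_le_norm X).trans h3)
  have h4 : ‖pt w‖ ≤ n * η + K + 2 := by
    have := norm_sub_le (pt w + X) X
    rw [add_sub_cancel_right] at this
    linarith
  have c2 := (Complex.abs_re_le_norm (pt w)).trans h4
  have c3 := abs_le.1 ((Complex.abs_im_le_norm (pt w)).trans h4)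
  rw [Complex.add_im] at h2
  refine ⟨c2, ?_, c3.2⟩
  have : (pt w).im = w.2 := rfl
  linarith

/-- The movements `H135.mv` and the frames. -/
theorem mv_fr (r : Fin 4) (a : ℤ × ℤ) (ha : Even (a.1 + a.2)) (w : ℤ × ℤ) :
    (H135.mv r a ha).t w = (H760.Tr.fr a r).S w := by
  rw [H135.mv_t, H760.Tr.fr_S]
  fin_cases r
  · show (H135.rk 0).t w + a = _
    rw [H135.rk0_t]
    ext <;> simp [E6.dir] <;> ring
  · show (H135.rk 1).t w + a = _
    rw [H135.rk1_t]
    ext <;> simp [E6.dir] <;> ring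
  · show (H135.rk 2).t w + a = _
    rw [H135.rk2_t]
    ext <;> simp [E6.dir] <;> ring
  · show (H135.rk 3).t w + a = _
    rw [H135.rk3_t]
    ext <;> simp [E6.dir] <;> ring

end Vale.Agent.P167.H208.SH
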