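import Vale.Agent.P167.H208.SH.Shp
import Vale.Agent.P167.H208.ND.FP
import Vale.Agent.P167.H174.ND.Two
import Vale.Agent.P167.H174.ND.Base2
import Vale.Agent.P167.H640.ND.SymX

/-!
# P167, general `q`, block Q-ND / CONT: the side of the base point, general polygons

The bump `θ cms (fb (chp J K) ν c ρ)` next to the base point `q 0` of a free polygon and the point charge `- θ`
at a far boundary site `q l`: two-sided bounds, and the dependence on `l`.
-/

open Set Filter Topology MeasureTheory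
open scoped ComplexConjugate

namespace Vale.Agent.P167.H208.SH

open Vale.Agent.P167 Vale.Agent.P167.BR Vale.Agent.P167.FK
open Vale.Agent.P167.CA (cms)
open Vale.Agent.P167.H411.Q (fb)
open Vale.Agent.P167.E6 (pt IsPolygon Encloses)
open Vale.Agent.P167.H436.ND
open Vale.Agent.P167.H135 (Mov)
open Vale.Agent.P167.H718 (Dob)
open Vale.Agent.P167.QB (XG dlt Nf dq flt_of)
open Vale.Agent.P167.H562.QM (FltQ NbP)
open Vale.Agent.P167.H519 (IsLim)
open Vale.Agent.P167.H192.Q (SRSW)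
open Vale.Agent.P167.H640.ND (Mq poly_mov enc_mov Ex_XG_mov)
open Vale.Agent.P167.H174.ND (xg_base_even poly_rot encl_rot nb_comp NbP_mono)

variable {θ : ℝ} {P : Measure Cfg} {N : ℕ} {q : ZMod N → ℤ × ℤ} {D : Finset (ℤ × ℤ)} {l : ℕ}

/-! ### the free polygon -/

theorem no_out' {η : Cfg} (h : ∀ v : ℤ × ℤ, η v = false) {s t : ℤ × ℤ} (hs : H718.OutC η D s t) :
    s = t := by
  unfold H718.OutC at hs
  induction hs with
  | refl => rfl
  | tail _ h2 _ =>
    have h3 := h2.2.2.1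
    rw [op, Set.mem_ofPred_eq, h _] at h3
    exact absurd h3 (by decide)

theorem dobf (D : Finset (ℤ × ℤ)) (q : ZMod N → ℤ × ℤ) : Dob eta0 D q N where
  good := good_eta0
  join i j h1 h2 h3 h4 _ _ := by
    have e1 : i = N := le_antisymm h2 h1
    have e2 : j = N := le_antisymm h4 h3
    subst e1
    subst e2
    exact Relation.ReflTransGen.refl
  sep s _ t _ _ h hne := absurd (no_out' (fun _ => rfl) h) hne

/-! ### the change of the base and the movement -/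

/-- The shifted polygon. -/
def qsh (q : ZMod N → ℤ × ℤ) (l : ℕ) : ZMod N → ℤ × ℤ := fun i => q (i + l)

theorem F_dlt (M : Mov) (F : ℤ × ℤ → ℝ) (v : ℤ × ℤ) (t : ℝ) :
    M.F (fun z => F z + dlt v t z) = fun z => M.F F z + dlt (M.t v) t z := by
  funext z
  unfold Mov.F dlt
  simp only [Equiv.symm_apply_eq]

/-- The factor of the change of the base. -/
noncomputable def fac (θ : ℝ) (v : ℤ × ℤ) : ℝ :=
  if (v.1 + v.2) % 2 = 0 then 1 else (2 * Real.cos θ)⁻¹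

theorem fac_bd (h0 : 0 < θ) (h1 : θ ≤ Real.pi / 3) (v : ℤ × ℤ) : 1 / 2 ≤ fac θ v ∧ fac θ v ≤ 1 := by
  have h2 := one_le_q h0 h1
  have h3 := Real.cos_le_one θ
  unfold fac
  split_ifs
  · constructor <;> norm_num
  · constructor
    · rw [one_div]
      exact inv_anti₀ (by linarith) (by linarith)
    · exact inv_le_one_of_one_le₀ h2

theorem w_eq (h0 : 0 < θ) (h1 : θ ≤ Real.pi / 3) (hq : IsPolygon q) (hD : Encloses q D)
    (hl : l < N) (he : ((q l).1 + (q l).2) % 2 = 0) (M : Mov) {F : ℤ × ℤ → ℝ}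
    (hF : ∀ z, F z ≠ 0 → z ∈ sites D) (hs : ∑ᶠ z, F z = θ) :
    Ex (2 * Real.cos θ) D eta0 (XG θ q D N (fun z => F z - dlt (q l) θ z)) =
      fac θ (q 0) * Ex (2 * Real.cos θ) (M.S D) eta0
        (XG θ (Mq M (qsh q l)) (M.S D) N (fun z => M.F F z + dlt (M.t (q 0)) (-θ) z)) := by
  have hpi := Real.pi_pos
  have e1 : (fun z => F z - dlt (q l) θ z) = fun z => F z + dlt (q l) (-θ) z := by
    funext z
    unfold dlt
    split_ifs <;> ring
  have e2 : XG θ q D N (fun z => F z + dlt (q l) (-θ) z) = fun ω => fac θ (q 0) *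
      XG θ (qsh q l) D N (fun z => F z + dlt (q 0) (-θ) z) ω := by
    funext ω
    exact xg_base_even h0 (by linarith) hq hD hl (fun i => rfl) hF hs he ω
  have e3 := Ex_XG_mov M (2 * Real.cos θ) θ (D := D) (k := N)
    (poly_rot hq (q' := qsh q l) (fun i => rfl)) eta0 (fun z => F z + dlt (q 0) (-θ) z)
  rw [F_dlt] at e3
  have e4 : M.c eta0 = eta0 := rfl
  rw [e4] at e3
  rw [e1, e2, FKA.Ex_mul_left, e3]

/-- The window after the change of the base and the movement. -/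
theorem win_mv (hq : IsPolygon q) (hD : Encloses q D) (hl0 : 0 < l) (hl : l < N) (M : Mov) {R : ℤ}
    (hF : FltQ (M.S D) eta0 (M.t (q 0)) R false false) (hoff : M.t (q l) ∉ sites (hbox (M.t (q 0)) R)) :
    Mq M (qsh q l) ((N - l : ℕ) : ZMod N) = M.t (q 0) ∧
    Win (Mq M (qsh q l)) (M.S D) (N - l) R := by
  have e1 : Mq M (qsh q l) ((N - l : ℕ) : ZMod N) = M.t (q 0) := by
    unfold Mq qsh
    congr 2
    rw [← Nat.cast_add, Nat.sub_add_cancel hl.le, ZMod.natCast_self]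
  refine ⟨e1, ⟨poly_mov M (poly_rot hq (fun i => rfl)), enc_mov M (encl_rot hD (fun i => rfl)), ?_,
    by omega, ?_⟩⟩
  · rw [e1]
    exact flt_of hF
  · rw [e1]
    show M.t (q (0 + l)) ∉ _
    rwa [zero_add]

/-! ### scales -/

/-- The smallest scale. -/
noncomputable def a00 (J : ℕ) (K : ℤ) (x : ℝ) : ℤ := ⌊x / (2 * (K : ℝ) ^ (J - 1))⌋

/-- The scales. -/
noncomputable def asq (J : ℕ) (K : ℤ) (x : ℝ) (i : Fin J) : ℤ := K ^ (i : ℕ) * a00 J K x

theorem asq_bd {J : ℕ} {K : ℤ} (hK : 1 ≤ K) {x : ℝ} (h64 : 64 ≤ a00 J K x) (i : Fin J) :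
    (2 : ℝ) * asq J K x i ≤ x * rsc J K i ∧
      x * rsc J K i ≤ (2 : ℝ) * asq J K x i + asq J K x i / 32 ∧ a00 J K x ≤ asq J K x i ∧
      (2 : ℝ) * asq J K x i ≤ x ∧ x ≤ 4 * (K : ℝ) ^ (J - 1) * asq J K x i := by
  have hK1 : (1 : ℝ) ≤ K := by exact_mod_cast hK
  have hp : (0 : ℝ) < (K : ℝ) ^ (J - 1) := by positivity
  have hpi : (1 : ℝ) ≤ (K : ℝ) ^ (i : ℕ) := one_le_pow₀ hK1
  have h1 : (a00 J K x : ℝ) * (2 * (K : ℝ) ^ (J - 1)) ≤ x := by
    rw [← le_div_iff₀ (by positivity)]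
    exact Int.floor_le _
  have h2 : x < (a00 J K x + 1 : ℝ) * (2 * (K : ℝ) ^ (J - 1)) := by
    rw [← div_lt_iff₀ (by positivity)]
    exact Int.lt_floor_add_one _
  have h3 : (64 : ℝ) ≤ a00 J K x := by exact_mod_cast h64
  have h4 : (asq J K x i : ℝ) = (K : ℝ) ^ (i : ℕ) * a00 J K x := by unfold asq; push_cast; rfl
  have h5 : x * rsc J K i = x / (K : ℝ) ^ (J - 1) * (K : ℝ) ^ (i : ℕ) := by unfold rsc; ring
  have h6 : (a00 J K x : ℝ) * 2 ≤ x / (K : ℝ) ^ (J - 1) := by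
    rw [le_div_iff₀ hp]; linarith
  have h7 : x / (K : ℝ) ^ (J - 1) ≤ (a00 J K x + 1 : ℝ) * 2 := by
    rw [div_le_iff₀ hp]; linarith
  have h8 : (a00 J K x : ℝ) ≤ asq J K x i := by
    rw [h4]; nlinarith
  have hA : (2 : ℝ) * asq J K x i ≤ x * rsc J K i := by
    rw [h5, h4]
    calc (2 : ℝ) * ((K : ℝ) ^ (i : ℕ) * a00 J K x) = (a00 J K x * 2) * (K : ℝ) ^ (i : ℕ) := by ring
      _ ≤ _ := mul_le_mul_of_nonneg_right h6 (by positivity)
  have hx0 : 0 ≤ x := by nlinarith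
  refine ⟨hA, ?_, by exact_mod_cast h8, ?_, ?_⟩
  · rw [h5, h4]
    calc x / (K : ℝ) ^ (J - 1) * (K : ℝ) ^ (i : ℕ) ≤ ((a00 J K x + 1) * 2) * (K : ℝ) ^ (i : ℕ) :=
          mul_le_mul_of_nonneg_right h7 (by positivity)
      _ ≤ (2 * a00 J K x + a00 J K x / 32) * (K : ℝ) ^ (i : ℕ) :=
          mul_le_mul_of_nonneg_right (by linarith) (by positivity)
      _ = _ := by ring
  · exact hA.trans (mul_le_of_le_one_right hx0 (rsc_le hK i))
  · have h9 : x ≤ 4 * (K : ℝ) ^ (J - 1) * a00 J K x := by nlinarith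
    refine h9.trans (mul_le_mul_of_nonneg_left h8 (by positivity))

theorem a00_ge {J : ℕ} {K : ℤ} (hK : 1 ≤ K) {x : ℝ} {A : ℤ} (h : 2 * (K : ℝ) ^ (J - 1) * A ≤ x) :
    A ≤ a00 J K x := by
  have hK1 : (1 : ℝ) ≤ K := by exact_mod_cast hK
  unfold a00
  rw [Int.le_floor, le_div_iff₀ (by positivity)]
  linarith

theorem asq_scl {J : ℕ} {K R A : ℤ} (hK : 1 ≤ K) {x : ℝ} (h64 : 64 ≤ a00 J K x)
    (hA : A ≤ a00 J K x) (hR : ((K : ℝ) + 8) * x ≤ R) :
    Scl A K R (asq J K x) ∧ (∀ i, K * asq J K x i ≤ R) ∧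
      ∀ i j : Fin J, (i : ℕ) + 1 = j → asq J K x j ≤ 2 * K * asq J K x i := by
  have hK1 : (1 : ℝ) ≤ K := by exact_mod_cast hK
  have hpos : ∀ i, 64 ≤ asq J K x i := fun i => h64.trans (asq_bd hK h64 i).2.2.1
  have key : ∀ i : Fin J, ((K : ℝ) + 8) * asq J K x i ≤ R := fun i => by
    have h1 := (asq_bd hK h64 i).2.2.2.1
    have h2 : (64 : ℝ) ≤ asq J K x i := by exact_mod_cast hpos i
    refine le_trans (mul_le_mul_of_nonneg_left ?_ (by linarith)) hR
    linarith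
  refine ⟨⟨fun i => hA.trans (asq_bd hK h64 i).2.2.1, fun i j hij => ?_, fun i => ?_⟩, fun i => ?_,
    fun i j hij => ?_⟩
  · unfold asq
    have h1 : K ^ ((i : ℕ) + 1) ≤ K ^ (j : ℕ) := pow_le_pow_right₀ hK hij
    calc K * (K ^ (i : ℕ) * a00 J K x) = K ^ ((i : ℕ) + 1) * a00 J K x := by ring
      _ ≤ _ := mul_le_mul_of_nonneg_right h1 (by omega)
  · have h1 := key i
    have h2 : (64 : ℝ) ≤ asq J K x i := by exact_mod_cast hpos i
    have h3 : (8 : ℝ) * asq J K x i ≤ R := by nlinarith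
    exact_mod_cast h3
  · have h1 := key i
    have h2 : (64 : ℝ) ≤ asq J K x i := by exact_mod_cast hpos i
    have h3 : (K : ℝ) * asq J K x i ≤ R := by nlinarith
    exact_mod_cast h3
  · unfold asq
    have h2 : 0 ≤ K ^ ((i : ℕ) + 1) * a00 J K x := mul_nonneg (by positivity) (by omega)
    calc K ^ (j : ℕ) * a00 J K x = K ^ ((i : ℕ) + 1) * a00 J K x := by rw [hij]
      _ ≤ 2 * (K ^ ((i : ℕ) + 1) * a00 J K x) := by omega
      _ = _ := by ring

/-! ### exponents -/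

theorem nb_near (h0 : 0 < θ) (h1 : θ ≤ Real.pi / 3) (hR : RSW (2 * Real.cos θ))
    (hP : IsLim (2 * Real.cos θ) P) {Λ : ℝ} (hΛ : 1 ≤ Λ) :
    ∃ C d0 : ℝ, 0 ≤ C ∧ 0 < d0 ∧ ∀ d d' : ℝ, d0 ≤ d → d0 ≤ d' → d ≤ Λ * d' → d' ≤ Λ * d →
      |NbP P d - NbP P d'| ≤ C := by
  obtain ⟨C, d0, hC, hd0, h⟩ := nb_comp (one_le_q h0 h1) hR hP hΛ
  have hPp : IsProbabilityMeasure P := hP.1
  refine ⟨C, d0, hC, hd0, fun d d' h2 h3 h4 h5 => ?_⟩
  rcases le_total d d' with h6 | h6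
  · have h7 := h d d' h2 h6 h5
    have h8 := NbP_mono hPp h6
    rw [abs_le]
    constructor <;> linarith
  · have h7 := h d' d h3 h6 h4
    have h8 := NbP_mono hPp h6
    rw [abs_le]
    constructor <;> linarith

theorem ex_near (h0 : 0 < θ) (h1 : θ ≤ Real.pi / 3) (hR : RSW (2 * Real.cos θ))
    (hP : IsLim (2 * Real.cos θ) P) {J : ℕ} (hJ : 0 < J) {K : ℤ} (hK : 1 ≤ K) {K' : ℝ}
    (hK' : 1 ≤ K') : ∃ C r0 : ℝ, 0 ≤ C ∧ ∀ x : ℝ, r0 ≤ x →
      |Real.tan θ * θ * NbP P (dq K' (⌈x⌉ + 1)) -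
        Ex0 θ P (fun _ : Fin J => θ / J) (asq J K x)| ≤ C := by
  have hK1 : (1 : ℝ) ≤ K := by exact_mod_cast hK
  have hpi := Real.pi_pos
  have hpK : (1 : ℝ) ≤ (K : ℝ) ^ (J - 1) := one_le_pow₀ hK1
  have ht : 0 ≤ Real.tan θ := Real.tan_nonneg_of_nonneg_of_le_pi_div_two h0.le (by linarith)
  obtain ⟨C, d0, hC, hd0, h⟩ := nb_near h0 h1 hR hP (Λ := K' + 100 * (K : ℝ) ^ (J - 1))
    (by linarith)
  refine ⟨Real.tan θ * θ * C, max (128 * (K : ℝ) ^ (J - 1))
    (max (1600 * (K : ℝ) ^ (J - 1) * d0) (66 * K' * d0)), by positivity, fun x hx => ?_⟩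
  have hx1 : 128 * (K : ℝ) ^ (J - 1) ≤ x := (le_max_left _ _).trans hx
  have hx2 : 1600 * (K : ℝ) ^ (J - 1) * d0 ≤ x := ((le_max_left _ _).trans (le_max_right _ _)).trans hx
  have hx3 : 66 * K' * d0 ≤ x := ((le_max_right _ _).trans (le_max_right _ _)).trans hx
  have hx0 : 1 ≤ x := by linarith
  have h64 : 64 ≤ a00 J K x := a00_ge hK (by push_cast; linarith)
  have c1 := Int.le_ceil x
  have c2 := Int.ceil_lt_add_one x
  have hJ0 : (0 : ℝ) < J := by exact_mod_cast hJ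
  have key : ∀ i : Fin J, |NbP P (dq K' (⌈x⌉ + 1)) - NbP P (kp * asq J K x i)| ≤ C := by
    intro i
    obtain ⟨h2, h3, h4, h5, h6⟩ := asq_bd hK h64 i
    have e1 : dq K' (⌈x⌉ + 1) = 1 / (66 * K') * (⌈x⌉ + 1 : ℝ) := by
      unfold QB.dq
      push_cast
      rfl
    have ha : (0 : ℝ) < asq J K x i := by
      have : (64 : ℤ) ≤ asq J K x i := h64.trans h4
      have : (64 : ℝ) ≤ asq J K x i := by exact_mod_cast this
      linarith
    refine h _ _ ?_ ?_ ?_ ?_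
    · rw [e1, div_mul_eq_mul_div, one_mul, le_div_iff₀ (by positivity)]
      linarith
    · unfold kp
      nlinarith
    · rw [e1, div_mul_eq_mul_div, one_mul, div_le_iff₀ (by positivity)]
      unfold kp
      have h7 : (⌈x⌉ + 1 : ℝ) ≤ 3 * x := by linarith
      have h8 : 3 * x ≤ 12 * (K : ℝ) ^ (J - 1) * asq J K x i := by linarith
      have h9 : 0 ≤ (K : ℝ) ^ (J - 1) * asq J K x i := by positivity
      have h10 : 0 ≤ K' * asq J K x i := by positivity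
      have h11 : (K : ℝ) ^ (J - 1) * asq J K x i ≤ (K : ℝ) ^ (J - 1) * asq J K x i * K' :=
        le_mul_of_one_le_right h9 hK'
      nlinarith
    · rw [e1]
      unfold kp
      have h7 : (1 : ℝ) / 400 * asq J K x i ≤ x / 800 := by linarith
      have h8 : x / 800 ≤ 1 / 66 * (⌈x⌉ + 1 : ℝ) := by linarith
      have h9 : 1 / 66 * (⌈x⌉ + 1 : ℝ) = K' * (1 / (66 * K') * (⌈x⌉ + 1 : ℝ)) := by field_simp
      have h10 : 0 ≤ 1 / (66 * K') * (⌈x⌉ + 1 : ℝ) := by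
        have : (0 : ℝ) ≤ ⌈x⌉ + 1 := by linarith
        positivity
      have h11 : K' * (1 / (66 * K') * (⌈x⌉ + 1 : ℝ)) ≤
          (K' + 100 * (K : ℝ) ^ (J - 1)) * (1 / (66 * K') * (⌈x⌉ + 1 : ℝ)) :=
        mul_le_mul_of_nonneg_right (by linarith) h10
      linarith
  have e2 : Real.tan θ * θ * NbP P (dq K' (⌈x⌉ + 1)) -
      Ex0 θ P (fun _ : Fin J => θ / J) (asq J K x) = ∑ i : Fin J, Real.tan θ * (θ / J) *
        (NbP P (dq K' (⌈x⌉ + 1)) - NbP P (kp * asq J K x i)) := by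
    unfold Ex0
    simp only [mul_sub, Finset.sum_sub_distrib, Finset.sum_const, Finset.card_univ, Fintype.card_fin,
      nsmul_eq_mul, Finset.mul_sum]
    congr 1
    · field_simp
    · exact Finset.sum_congr rfl fun i _ => by ring
  rw [e2]
  refine (Finset.abs_sum_le_sum_abs _ _).trans ?_
  calc ∑ i : Fin J, |Real.tan θ * (θ / J) * (NbP P (dq K' (⌈x⌉ + 1)) - NbP P (kp * asq J K x i))|
      ≤ ∑ _i : Fin J, Real.tan θ * (θ / J) * C := by
        refine Finset.sum_le_sum fun i _ => ?_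
        rw [abs_mul, abs_of_nonneg (by positivity : 0 ≤ Real.tan θ * (θ / J))]
        exact mul_le_mul_of_nonneg_left (key i) (by positivity)
    _ = _ := by
        rw [Finset.sum_const, Finset.card_univ, Fintype.card_fin, nsmul_eq_mul]
        field_simp

end Vale.Agent.P167.H208.SH
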