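import Vale.Agent.P167.H208.SH.PS0

/-!
# P167, general `q`, block Q-ND / CONT: the side of the base point, general polygons, main theorem
-/

open Set Filter Topology MeasureTheory
open scoped ComplexConjugate

namespace Vale.Agent.P167.H208.SH

open Vale.Agent.P167 Vale.Agent.P167.BR Vale.Agent.P167.FK
open Vale.Agent.P167.CA (cms)
open Vale.Agent.P167.H411.Q (fb)
open Vale.Agent.P167.E6 (pt IsPolygon Encloses)
open Vale.Agent.P167.H436.ND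
open Vale.Agent.P167.H135 (Mov)
open Vale.Agent.P167.QB (XG dlt Nf dq flt_of)
open Vale.Agent.P167.H562.QM (FltQ NbP)
open Vale.Agent.P167.H519 (IsLim)
open Vale.Agent.P167.H192.Q (SRSW)
open Vale.Agent.P167.H640.ND (Mq)

variable {θ : ℝ} {P : Measure Cfg} {N : ℕ} {q : ZMod N → ℤ × ℤ} {D : Finset (ℤ × ℤ)} {l : ℕ}

/-- The bump next to the base point. -/
noncomputable def Fp (θ : ℝ) (χ : ℂ → ℝ) (ν cc : ℂ) (ρ : ℝ) (n : ℕ) (o : ℤ × ℤ) (z : ℤ × ℤ) : ℝ :=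
  θ * cms (fb χ ν cc ρ) (1 / n) (z - o)

/-- The bump next to the base point and the point charge at `q l`. -/
noncomputable def Wp (θ : ℝ) (χ : ℂ → ℝ) (ν cc : ℂ) (ρ : ℝ) (n : ℕ) (o : ℤ × ℤ)
    (q : ZMod N → ℤ × ℤ) (D : Finset (ℤ × ℤ)) (l : ℕ) : ℝ :=
  Ex (2 * Real.cos θ) D eta0 (XG θ q D N (fun z => Fp θ χ ν cc ρ n o z - dlt (q l) θ z))

/-- The situation: a free polygon with a flat window of radius `R` at the base point. -/
structure Sit (K : ℤ) (r0 : ℝ) (q : ZMod N → ℤ × ℤ) (D : Finset (ℤ × ℤ)) (M : Mov) (ν cc : ℂ)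
    (o : ℤ × ℤ) (n : ℕ) (ρ : ℝ) (R : ℤ) : Prop where
  poly : IsPolygon q
  enc : Encloses q D
  rot : RotN M ν
  nu : ‖ν‖ = 1
  near : ‖pt (q 0) - pt o - n * cc‖ ≤ 3
  n0 : 0 < n
  rho : 0 < ρ
  big : r0 ≤ n * ρ
  top : ((K : ℝ) + 8) * (n * ρ) ≤ R
  flt : FltQ (M.S D) eta0 (M.t (q 0)) R false false

/-- An even boundary site outside of the window. -/
structure Far (q : ZMod N → ℤ × ℤ) (M : Mov) (R : ℤ) (l : ℕ) : Prop where
  pos : 0 < l
  lt : l < N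
  even : ((q l).1 + (q l).2) % 2 = 0
  off : M.t (q l) ∉ sites (hbox (M.t (q 0)) R)

/-- The bumps in the frame. -/
noncomputable def fi (J : ℕ) (K : ℤ) (M : Mov) (ν cc : ℂ) (o : ℤ × ℤ) (n : ℕ) (ρ : ℝ) (i : Fin J) :
    ℤ × ℤ → ℝ := M.F fun s => cms (fb ch0 ν cc (ρ * rsc J K i)) (1 / n) (s - o)

section

variable {J : ℕ} {K : ℤ} {r0 : ℝ} {M : Mov} {ν cc : ℂ} {o : ℤ × ℤ} {n : ℕ} {ρ : ℝ} {R : ℤ}
  (hS : Sit K r0 q D M ν cc o n ρ R) (hJ : 0 < J) (hK : 1 ≤ K) (h80 : 80 ≤ a00 J K (n * ρ))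
include hS hJ hK h80

theorem bp_fi (i : Fin J) :
    Bp B0 (M.t (q 0)) (asq J K (n * ρ) i) (fi J K M ν cc o n ρ i) := by
  obtain ⟨h1, h2, h3, h4, h5⟩ := asq_bd hK (by omega : 64 ≤ a00 J K (n * ρ)) i
  have h6 : (80 : ℝ) ≤ asq J K (n * ρ) i := by exact_mod_cast h80.trans h3
  refine bp_moved hS.rot hS.nu (mul_pos hS.rho (rsc_pos hK i)) hS.n0 hS.near (by omega)
    (by linarith) ?_ ?_
  · rw [← mul_assoc]; exact h1
  · rw [← mul_assoc]; exact h2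

theorem F_fi : M.F (Fp θ (chp J K) ν cc ρ n o) =
    fun z => ∑ i : Fin J, θ / J * fi J K M ν cc o n ρ i z := by
  funext z
  unfold Mov.F Fp fi Mov.F
  rw [cms_chp hK hS.nu cc hS.rho, Finset.mul_sum]
  exact Finset.sum_congr rfl fun i _ => by ring

theorem Fp_supp (z : ℤ × ℤ) (hz : Fp θ (chp J K) ν cc ρ n o z ≠ 0) : z ∈ sites D := by
  have h1 : M.F (Fp θ (chp J K) ν cc ρ n o) (M.t z) ≠ 0 := by
    unfold Mov.F
    rwa [Equiv.symm_apply_apply]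
  rw [F_fi hS hJ hK h80] at h1
  obtain ⟨i, -, hi⟩ := Finset.exists_ne_zero_of_sum_ne_zero h1
  have h2 : fi J K M ν cc o n ρ i (M.t z) ≠ 0 := fun h => hi (by rw [h, mul_zero])
  have hb := bp_fi hS hJ hK h80 i
  have h3 := (asq_bd hK (by omega : 64 ≤ a00 J K (n * ρ)) i).2.2.1
  have h4 := (asq_scl hK (by omega : 64 ≤ a00 J K (n * ρ)) (le_refl _) hS.top).1.top i
  have h5 := H208.ND.kr_sites (by omega) (hb.supp _ h2)
  have h6 : Zr (M.t (q 0)) (asq J K (n * ρ) i) ⊆ M.S D :=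
    H640.ND.zone_sub (flt_of hS.flt) (by omega)
  exact M.mem_sites_t.1 (sites_mono h6 h5)

theorem Fp_sum : ∑ᶠ z, Fp θ (chp J K) ν cc ρ n o z = θ := by
  unfold Fp
  rw [← mul_finsum]
  have e : ∑ᶠ z : ℤ × ℤ, cms (fb (chp J K) ν cc ρ) (1 / n) (z - o) =
      ∑ᶠ s, cms (fb (chp J K) ν cc ρ) (1 / n) s :=
    finsum_comp_equiv (f := fun s => cms (fb (chp J K) ν cc ρ) (1 / n) s) (Equiv.subRight o)
  have hsh := shp_chp hJ hK
  rw [e, finsum_cms (int_fb hsh.smooth.continuous hsh.compact hS.nu cc hS.rho)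
    (R := ‖cc‖ + 1 * ρ) (fun u hu => fb_ne hS.nu hS.rho (fun v hv => (chp_supp hK hv).1) hu) hS.n0,
    integral_fb hsh hS.nu cc hS.rho, mul_one]

/-- The functional in the frame. -/
theorem wp_eq (h0 : 0 < θ) (h1 : θ ≤ Real.pi / 3) (hl : Far q M R l) :
    Wp θ (chp J K) ν cc ρ n o q D l = fac θ (q 0) * Ex (2 * Real.cos θ) (M.S D) eta0
      (XG θ (Mq M (qsh q l)) (M.S D) N
        (Ft (fun _ : Fin J => θ / J) (fi J K M ν cc o n ρ) (dlt (M.t (q 0)) (-θ)))) := by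
  unfold Wp
  rw [w_eq h0 h1 hS.poly hS.enc hl.lt hl.even M (Fp_supp hS hJ hK h80) (Fp_sum hS hJ hK h80),
    F_fi hS hJ hK h80]
  rfl

end

/-- **The side of the base point.** -/
theorem pside0 (h0 : 0 < θ) (h1 : θ ≤ Real.pi / 3) (hR : RSW (2 * Real.cos θ))
    (hS : SRSW (2 * Real.cos θ)) (hP : IsLim (2 * Real.cos θ) P) :
    ∃ (J : ℕ) (K : ℤ) (α : ℝ), 0 < J ∧ 4 ≤ K ∧ 0 < α ∧ ∀ K' : ℝ, 1 ≤ K' →
    ∃ (c C r0 : ℝ), 0 < c ∧ 0 < C ∧
    ∀ (N : ℕ) (q : ZMod N → ℤ × ℤ) (D : Finset (ℤ × ℤ)) (M : Mov) (ν cc : ℂ) (o : ℤ × ℤ) (n : ℕ)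
      (ρ : ℝ) (R : ℤ), Sit K r0 q D M ν cc o n ρ R → ∀ l l' : ℕ, Far q M R l → Far q M R l' →
      c ≤ Wp θ (chp J K) ν cc ρ n o q D l * Nf θ K' P (⌈(n : ℝ) * ρ⌉ + 1) ∧
      Wp θ (chp J K) ν cc ρ n o q D l * Nf θ K' P (⌈(n : ℝ) * ρ⌉ + 1) ≤ C ∧
      |Wp θ (chp J K) ν cc ρ n o q D l - Wp θ (chp J K) ν cc ρ n o q D l'| ≤
        C * ((n * ρ) / R) ^ α * Wp θ (chp J K) ν cc ρ n o q D l := by
  obtain ⟨J, hJ, hptp⟩ := H208.ND.s_ptp h0 h1 hR hS hP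
  obtain ⟨K, hK4, hptp⟩ := hptp J le_rfl B0 B0_pos
  obtain ⟨c1, C1, A1, hc1, hptp⟩ := hptp K le_rfl
  obtain ⟨α, hα, htwo⟩ := H174.ND.s_two h0 h1 hR hP
  obtain ⟨C2, A2, htwo⟩ := htwo J B0 hJ B0_pos (2 * K)
  have hK : 1 ≤ K := by omega
  have hK1 : (1 : ℝ) ≤ K := by exact_mod_cast hK
  have hK4' : (4 : ℝ) ≤ K := by exact_mod_cast hK4
  refine ⟨J, K, α, hJ, hK4, hα, fun K' hK' => ?_⟩
  obtain ⟨C3, r3, hC3, hex⟩ := ex_near h0 h1 hR hP hJ hK hK'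
  set A : ℤ := max 80 (max A1 A2) with hA
  refine ⟨1 / 2 * c1 * Real.exp (-C3), max (C1 * Real.exp C3) (|C2| / c1 + 1),
    max r3 (2 * (K : ℝ) ^ (J - 1) * A), by positivity,
    lt_of_lt_of_le (by positivity) (le_max_right _ _), ?_⟩
  intro N q D M ν cc o n ρ R hSit l l' hl hl'
  have hb1 : r3 ≤ n * ρ := (le_max_left _ _).trans hSit.big
  have hb2 : 2 * (K : ℝ) ^ (J - 1) * A ≤ n * ρ := (le_max_right _ _).trans hSit.big
  have hA0 := a00_ge hK hb2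
  have h80 : 80 ≤ a00 J K (n * ρ) := (le_max_left _ _).trans hA0
  have hA1 : A1 ≤ a00 J K (n * ρ) := ((le_max_left _ _).trans (le_max_right _ _)).trans hA0
  have hA2 : A2 ≤ a00 J K (n * ρ) := ((le_max_right _ _).trans (le_max_right _ _)).trans hA0
  have hnρ : 0 < (n : ℝ) * ρ := mul_pos (by exact_mod_cast hSit.n0) hSit.rho
  have hRpos : (0 : ℝ) < R := lt_of_lt_of_le (by positivity) hSit.top
  obtain ⟨k1, k2, k3⟩ := asq_scl hK (by omega : 64 ≤ a00 J K (n * ρ)) hA1 hSit.top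
  obtain ⟨k4, -, -⟩ := asq_scl hK (by omega : 64 ≤ a00 J K (n * ρ)) hA2 hSit.top
  -- the windows
  have hwin : ∀ l, Far q M R l → Mq M (qsh q l) ((N - l : ℕ) : ZMod N) = M.t (q 0) ∧
      Win (Mq M (qsh q l)) (M.S D) (N - l) R := fun l hl =>
    win_mv hSit.poly hSit.enc hl.pos hl.lt M hSit.flt hl.off
  have hrange : ∀ l, Far q M R l → ((N - l : ℕ) : ℤ) + R ≤ N := fun l hl => by
    have h2 := (hwin l hl).2
    have h3 := flat_range h2.poly h2.enc h2.flat (by exact_mod_cast hRpos) h2.l1 h2.off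
    omega
  have hflt : FltO (M.S D) eta0 (M.t (q 0)) R false false :=
    ⟨good_eta0, fun v _ _ _ _ => by simp [eta0]⟩
  obtain ⟨E, hE⟩ : ∃ E : ℕ → ℝ, E = fun l => Ex (2 * Real.cos θ) (M.S D) eta0
      (XG θ (Mq M (qsh q l)) (M.S D) N
        (Ft (fun _ : Fin J => θ / J) (fi J K M ν cc o n ρ) (dlt (M.t (q 0)) (-θ)))) := ⟨_, rfl⟩
  obtain ⟨x, hx⟩ : ∃ x : ℝ, x = Ex0 θ P (fun _ : Fin J => θ / J) (asq J K (n * ρ)) := ⟨_, rfl⟩
  have hbp := bp_fi hSit hJ hK h80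
  have hW : ∀ l, Far q M R l → Wp θ (chp J K) ν cc ρ n o q D l = fac θ (q 0) * E l := fun l hl => by
    rw [hE]
    exact wp_eq hSit hJ hK h80 h0 h1 hl
  have hP1 : ∀ l, Far q M R l → c1 ≤ E l * Real.exp x ∧ E l * Real.exp x ≤ C1 := fun l hl => by
    obtain ⟨g1, g2⟩ := hwin l hl
    have h2 := hptp N (Mq M (qsh q l)) (M.S D) N (N - l) R eta0 g2 (hrange l hl) le_rfl
      (dobf _ _) (by rw [g1]; exact hflt) (asq J K (n * ρ)) k1 k2 k3 (fi J K M ν cc o n ρ)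
      (fun i => by rw [g1]; exact hbp i)
    rw [g1] at h2
    rw [hE, hx]
    exact h2
  have hT : |E l - E l'| * Real.exp x ≤ |C2| * ((n * ρ) / R) ^ α := by
    obtain ⟨g1, g2⟩ := hwin l hl
    obtain ⟨g1', g2'⟩ := hwin l' hl'
    have h4 : Scl A2 4 R (asq J K (n * ρ)) := by
      refine ⟨k4.pos, fun i j hij => ?_, k4.top⟩
      have h5 := k4.step i j hij
      have h6 : 80 ≤ asq J K (n * ρ) i :=
        h80.trans (asq_bd hK (by omega : 64 ≤ a00 J K (n * ρ)) i).2.2.1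
      nlinarith
    have h2 := htwo N N (Mq M (qsh q l)) (Mq M (qsh q l')) (M.S D) (M.S D) N (N - l) N (N - l') R
      eta0 eta0 g2 g2' (g1.trans g1'.symm) (hrange l hl) le_rfl (dobf _ _) (by rw [g1]; exact hflt)
      (hrange l' hl') le_rfl (dobf _ _) (by rw [g1]; exact hflt) (asq J K (n * ρ)) h4 k3
      (fi J K M ν cc o n ρ) (fun i => by rw [g1]; exact hbp i)
    rw [g1] at h2
    rw [hE, hx]
    refine h2.trans ?_
    have hne : Nonempty (Fin J) := ⟨⟨0, hJ⟩⟩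
    have h5 : (⨆ i, (asq J K (n * ρ) i : ℝ) / R) ≤ (n * ρ) / R := by
      refine ciSup_le fun i => div_le_div_of_nonneg_right ?_ hRpos.le
      have h6 := (asq_bd hK (by omega : 64 ≤ a00 J K (n * ρ)) i).2.2.2.1
      linarith
    have h6 : 0 ≤ (⨆ i, (asq J K (n * ρ) i : ℝ) / R) := by
      refine Real.iSup_nonneg fun i => div_nonneg ?_ hRpos.le
      have h7 : 80 ≤ asq J K (n * ρ) i :=
        h80.trans (asq_bd hK (by omega : 64 ≤ a00 J K (n * ρ)) i).2.2.1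
      exact_mod_cast (by omega : 0 ≤ asq J K (n * ρ) i)
    exact mul_le_mul (le_abs_self _) (Real.rpow_le_rpow h6 h5 hα.le) (Real.rpow_nonneg h6 _)
      (abs_nonneg _)
  -- the exponents
  obtain ⟨y, hy⟩ : ∃ y : ℝ, y = Real.tan θ * θ * NbP P (dq K' (⌈(n : ℝ) * ρ⌉ + 1)) := ⟨_, rfl⟩
  have hN : Nf θ K' P (⌈(n : ℝ) * ρ⌉ + 1) = Real.exp y := by
    rw [hy]
    unfold QB.Nf
    push_cast
    rfl
  have hxy : |y - x| ≤ C3 := by
    rw [hy, hx]
    exact hex _ hb1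
  have hxy' := abs_le.1 hxy
  obtain ⟨hf1, hf2⟩ := fac_bd h0 h1 (q 0)
  obtain ⟨p1, p2⟩ := hP1 l hl
  have hEl : 0 < E l := by
    by_contra hcon
    have := Real.exp_pos x
    nlinarith
  have e5 : E l * Real.exp y = E l * Real.exp x * Real.exp (y - x) := by
    rw [mul_assoc, ← Real.exp_add]
    congr 2
    ring
  have p3 : Real.exp (-C3) ≤ Real.exp (y - x) := Real.exp_le_exp.2 (by linarith)
  have p4 : Real.exp (y - x) ≤ Real.exp C3 := Real.exp_le_exp.2 hxy'.2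
  have hC1 : 0 < C1 := lt_of_lt_of_le hc1 (p1.trans p2)
  rw [hW l hl, hW l' hl', hN]
  refine ⟨?_, ?_, ?_⟩
  · rw [mul_assoc (fac θ (q 0)), e5]
    have h2 : c1 * Real.exp (-C3) ≤ E l * Real.exp x * Real.exp (y - x) :=
      mul_le_mul p1 p3 (Real.exp_pos _).le (by linarith)
    have h3 : 0 ≤ c1 * Real.exp (-C3) := by positivity
    calc 1 / 2 * c1 * Real.exp (-C3) = 1 / 2 * (c1 * Real.exp (-C3)) := by ring
      _ ≤ fac θ (q 0) * (E l * Real.exp x * Real.exp (y - x)) :=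
        mul_le_mul hf1 h2 h3 (by linarith)
  · rw [mul_assoc (fac θ (q 0)), e5]
    have h2 : E l * Real.exp x * Real.exp (y - x) ≤ C1 * Real.exp C3 :=
      mul_le_mul p2 p4 (Real.exp_pos _).le hC1.le
    have h3 : 0 ≤ E l * Real.exp x * Real.exp (y - x) := by positivity
    calc fac θ (q 0) * (E l * Real.exp x * Real.exp (y - x)) ≤
        1 * (E l * Real.exp x * Real.exp (y - x)) := mul_le_mul_of_nonneg_right hf2 h3
      _ ≤ C1 * Real.exp C3 := by rw [one_mul]; exact h2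
      _ ≤ _ := le_max_left _ _
  · obtain ⟨w, hw⟩ : ∃ w : ℝ, w = ((n * ρ) / R) ^ α := ⟨_, rfl⟩
    have hw0 : 0 ≤ w := by rw [hw]; positivity
    rw [← hw] at hT ⊢
    rw [← mul_sub, abs_mul, abs_of_nonneg (by linarith : 0 ≤ fac θ (q 0))]
    have h2 : |E l - E l'| ≤ |C2| / c1 * w * E l := by
      have h3 : |E l - E l'| * Real.exp x * c1 ≤ |C2| * w * (E l * Real.exp x) :=
        mul_le_mul hT p1 hc1.le (by positivity)
      have h4 : |E l - E l'| * c1 ≤ |C2| * w * E l := by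
        have h5 := Real.exp_pos x
        by_contra hcon
        push Not at hcon
        nlinarith [mul_lt_mul_of_pos_right hcon h5]
      calc |E l - E l'| = |E l - E l'| * c1 / c1 := by field_simp
        _ ≤ |C2| * w * E l / c1 := div_le_div_of_nonneg_right h4 hc1.le
        _ = _ := by ring
    have h6 : |C2| / c1 ≤ max (C1 * Real.exp C3) (|C2| / c1 + 1) :=
      le_trans (by linarith) (le_max_right _ _)
    calc fac θ (q 0) * |E l - E l'| ≤ fac θ (q 0) * (|C2| / c1 * w * E l) :=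
          mul_le_mul_of_nonneg_left h2 (by linarith)
      _ = |C2| / c1 * (w * (fac θ (q 0) * E l)) := by ring
      _ ≤ max (C1 * Real.exp C3) (|C2| / c1 + 1) * (w * (fac θ (q 0) * E l)) :=
          mul_le_mul_of_nonneg_right h6 (by positivity)
      _ = _ := by ring

end Vale.Agent.P167.H208.SH
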