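import Vale.Agent.P167.H208.SH.PS1

/-!
# P167, general `q`, block Q-ND / CONT: the bump next to the base point is admissible
-/

open Set Filter Topology MeasureTheory
open scoped ComplexConjugate

namespace Vale.Agent.P167.H208.SH

open Vale.Agent.P167 Vale.Agent.P167.BR Vale.Agent.P167.FK
open Vale.Agent.P167.CA (cms cms_eq measurableSet_cl)
open Vale.Agent.P167.H542.Dt (cms_abs_le)
open Vale.Agent.P167.H411.Q (fb)
open Vale.Agent.P167.E6 (pt IsPolygon Encloses)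
open Vale.Agent.P167.H135 (Mov)
open Vale.Agent.P167.QB (Bq')
open Vale.Agent.P167.H562.MAJ (core Sc)

variable {θ : ℝ}

theorem chp_norm {J : ℕ} {K : ℤ} (hK : 1 ≤ K) {u : ℂ} (h : chp J K u ≠ 0) : ‖u‖ ≤ 13 / 16 := by
  obtain ⟨i, hi⟩ := chp_ne h
  obtain ⟨h1, h2, h3, h4⟩ := ball_im (ch0_supp hi)
  have hs := rsc_pos (J := J) hK i
  have hs1 := rsc_le hK i
  rw [norm_div, Complex.norm_real, Real.norm_eq_abs, abs_of_pos hs, div_le_iff₀ hs] at h4
  linarith

/-- **The moved bump is admissible.** -/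
theorem bq_chp {J : ℕ} {K : ℤ} (hJ : 0 < J) (hK : 1 ≤ K) (h0 : 0 < θ) :
    ∃ K₀ : ℝ, 1 ≤ K₀ ∧ ∀ K' : ℝ, K₀ ≤ K' → ∃ r0 : ℝ, ∀ (M : Mov) (ν cc : ℂ) (o q0 : ℤ × ℤ) (n : ℕ)
      (ρ : ℝ), RotN M ν → ‖ν‖ = 1 → ‖pt q0 - pt o - n * cc‖ ≤ 3 → 0 < n → 0 < ρ → r0 ≤ n * ρ →
      Bq' θ K' (M.t q0) (⌈(n : ℝ) * ρ⌉ + 1) (M.F (Fp θ (chp J K) ν cc ρ n o)) := by
  have hK1 : (1 : ℝ) ≤ K := by exact_mod_cast hK
  have hsh := shp_chp hJ hK
  obtain ⟨B, hB0, hB⟩ := shp_bd hsh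
  obtain ⟨d, hd⟩ : ∃ d : ℝ, d = 11 / 16 / (K : ℝ) ^ (J - 1) := ⟨_, rfl⟩
  have hd0 : 0 < d := by rw [hd]; positivity
  refine ⟨max 1 (max (9 * θ * B) (6 / d)), le_max_left _ _, fun K' hK' => ?_⟩
  have hK1' : 1 ≤ K' := (le_max_left _ _).trans hK'
  have hK2 : 9 * θ * B ≤ K' := ((le_max_left _ _).trans (le_max_right _ _)).trans hK'
  have hK3 : 6 / d ≤ K' := ((le_max_right _ _).trans (le_max_right _ _)).trans hK'
  refine ⟨max (8 * K') (max 32 (10 / d)), fun M ν cc o q0 n ρ hM hν hnear hn hρ hx => ?_⟩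
  obtain ⟨x, hxd⟩ : ∃ x : ℝ, x = n * ρ := ⟨_, rfl⟩
  have hn' : (0 : ℝ) < n := by exact_mod_cast hn
  rw [← hxd] at hx ⊢
  have hx1 : 8 * K' ≤ x := (le_max_left _ _).trans hx
  have hx2 : 32 ≤ x := ((le_max_left _ _).trans (le_max_right _ _)).trans hx
  have hx3 : 10 / d ≤ x := ((le_max_right _ _).trans (le_max_right _ _)).trans hx
  have c1 := Int.le_ceil x
  have c2 := Int.ceil_lt_add_one x
  obtain ⟨r, hr⟩ : ∃ r : ℤ, r = ⌈x⌉ + 1 := ⟨_, rfl⟩
  rw [← hr]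
  have hr1 : x + 1 ≤ r := by rw [hr]; push_cast; linarith
  have hr2 : (r : ℝ) ≤ 3 * x := by rw [hr]; push_cast; linarith
  have hR0 : (0 : ℝ) < r := by linarith
  have hSc : Sc K' r := ⟨hK1', by linarith⟩
  refine ⟨fun z => ?_, fun z => ?_, fun z hz => ?_, ?_⟩
  · show 0 ≤ θ * cms (fb (chp J K) ν cc ρ) (1 / n) _
    refine mul_nonneg h0.le ?_
    rw [cms_eq]
    exact setIntegral_nonneg (measurableSet_cl _ _) fun u _ =>
      div_nonneg (hsh.nonneg _) (by positivity)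
  · show θ * cms (fb (chp J K) ν cc ρ) (1 / n) _ ≤ _
    have h4 := cms_abs_le (f := fb (chp J K) ν cc ρ) (M := B / ρ ^ 2) (fun z => ?_) hn
      (M.t.symm z - o)
    · have e : B / ρ ^ 2 / (n : ℝ) ^ 2 = B / x ^ 2 := by rw [hxd]; field_simp
      rw [e] at h4
      have h5 := (le_abs_self _).trans h4
      calc θ * cms (fb (chp J K) ν cc ρ) (1 / n) (M.t.symm z - o) ≤ θ * (B / x ^ 2) :=
            mul_le_mul_of_nonneg_left h5 h0.le
        _ ≤ K' / (r : ℝ) ^ 2 := by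
          rw [mul_div_assoc', div_le_div_iff₀ (by positivity) (by positivity)]
          have h6 : (r : ℝ) ^ 2 ≤ (3 * x) ^ 2 := pow_le_pow_left₀ hR0.le hr2 2
          have h7 : 0 ≤ θ * B := by positivity
          calc θ * B * (r : ℝ) ^ 2 ≤ θ * B * (3 * x) ^ 2 := mul_le_mul_of_nonneg_left h6 h7
            _ = 9 * θ * B * x ^ 2 := by ring
            _ ≤ K' * x ^ 2 := mul_le_mul_of_nonneg_right hK2 (by positivity)
    · unfold fb
      rw [abs_div, abs_of_pos (by positivity : (0 : ℝ) < ρ ^ 2)]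
      exact div_le_div_of_nonneg_right (hB _) (by positivity)
  · have hz' : M.F (fun s => cms (fb (chp J K) ν cc ρ) (1 / n) (s - o)) z ≠ 0 := by
      intro h
      apply hz
      show θ * M.F (fun s => cms (fb (chp J K) ν cc ρ) (1 / n) (s - o)) z = 0
      rw [h, mul_zero]
    obtain ⟨u, hu, h4⟩ := mv_supp hM hν hρ hn hnear hz'
    rw [← hxd] at h4
    have k4 := chp_norm hK hu
    have k2 := (chp_supp hK hu).2
    rw [← hd] at k2
    have k1' := abs_le.1 ((Complex.abs_re_le_norm u).trans k4)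
    have k3' := abs_le.1 ((Complex.abs_im_le_norm u).trans k4)
    have r1 := abs_le.1 ((Complex.abs_re_le_norm _).trans h4)
    have i1 := abs_le.1 ((Complex.abs_im_le_norm _).trans h4)
    have e1 : (pt z - pt (M.t q0) - (x : ℂ) * u).re = z.1 - (M.t q0).1 - x * u.re := by
      simp [pt]
    have e2 : (pt z - pt (M.t q0) - (x : ℂ) * u).im = z.2 - (M.t q0).2 - x * u.im := by
      simp [pt]
    rw [e1] at r1
    rw [e2] at i1
    have b1 : x * u.re ≤ x * (13 / 16) := mul_le_mul_of_nonneg_left k1'.2 (by linarith)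
    have b2 : x * (-(13 / 16)) ≤ x * u.re := mul_le_mul_of_nonneg_left k1'.1 (by linarith)
    have b3 : x * u.im ≤ x * (13 / 16) := mul_le_mul_of_nonneg_left k3'.2 (by linarith)
    have b4 : x * d ≤ x * u.im := mul_le_mul_of_nonneg_left k2 (by linarith)
    refine hSc.supp ?_ ?_ ?_ ?_
    · have : ((M.t q0).1 : ℝ) - r ≤ z.1 := by linarith
      exact_mod_cast this
    · have : (z.1 : ℝ) ≤ (M.t q0).1 + r := by linarith
      exact_mod_cast this
    · have h5 : (r : ℝ) / K' ≤ x * d - 5 := by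
        rw [div_le_iff₀ hd0] at hK3 hx3
        rw [div_le_iff₀ (by linarith)]
        nlinarith
      linarith
    · have : (z.2 : ℝ) ≤ (M.t q0).2 + r := by linarith
      exact_mod_cast this
  · have e : ∑ᶠ z, M.F (Fp θ (chp J K) ν cc ρ n o) z =
        ∑ᶠ s, θ * cms (fb (chp J K) ν cc ρ) (1 / n) s :=
      finsum_comp_equiv (f := fun s => θ * cms (fb (chp J K) ν cc ρ) (1 / n) s)
        (M.t.symm.trans (Equiv.subRight o))
    rw [e, ← mul_finsum, finsum_cms (int_fb hsh.smooth.continuous hsh.compact hν cc hρ)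
      (R := ‖cc‖ + 1 * ρ) (fun u hu => fb_ne hν hρ (fun v hv => (chp_supp hK hv).1) hu) hn,
      integral_fb hsh hν cc hρ, mul_one]

end Vale.Agent.P167.H208.SH
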