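import Vale.Agent.P167.H208.SH.PS2
import Vale.Agent.P167.H980.ND.WinF
import Vale.Agent.P167.H411.Q.Zn

/-!
# P167, general `q`, block Q-ND / CONT: the side of the base point, the free and the wired family
-/

open Set Filter Topology MeasureTheory
open scoped ComplexConjugate

namespace Vale.Agent.P167.H208.SH

open Vale.Agent.P167 Vale.Agent.P167.BR Vale.Agent.P167.FK
open Vale.Agent.P167.CA (cms)
open Vale.Agent.P167.BVP (Flat)
open Vale.Agent.P167.H411.Q (fb ow Dw qw poly_w encl_w rN)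
open Vale.Agent.P167.H411.B7 (Shp)
open Vale.Agent.P167.E6 (pt IsPolygon Encloses)
open Vale.Agent.P167.H135 (Mov rk)
open Vale.Agent.P167.QB (XG dlt Nf Bq')
open Vale.Agent.P167.H562.QM (FltQ)
open Vale.Agent.P167.H519 (IsLim)
open Vale.Agent.P167.H192.Q (SRSW)

variable {θ : ℝ} {P : Measure Cfg}

/-- The bump next to the base point and the point charge `- θ` at the boundary site `l`, for the free family
(`w = false`) and the wired family (`w = true`). -/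
noncomputable def WS (θ : ℝ) (χ : ℂ → ℝ) (S : CA.Dat) (νp : ℂ) (w : Bool) (n l : ℕ) (ρ : ℝ) : ℝ :=
  Ex (2 * Real.cos θ) (Dw S w n) eta0 (XG θ (qw S w n) (Dw S w n) (S.l * n)
    (fun z => θ * cms (fb χ νp S.bp ρ) (1 / n) (z - ow w) - dlt (qw S w n l) θ z))

theorem WS_eq (χ : ℂ → ℝ) (S : CA.Dat) (νp : ℂ) (w : Bool) (n l : ℕ) (ρ : ℝ) :
    WS θ χ S νp w n l ρ = Wp θ χ νp S.bp ρ n (ow w) (qw S w n) (Dw S w n) l := rfl

/-- Even boundary sites at macroscopic distance from the base point. -/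
structure Gd (S : CA.Dat) (w : Bool) (n : ℕ) (r : ℝ) (l : ℕ) : Prop where
  pos : 0 < l
  lt : l < S.l * n
  even : Even ((qw S w n l).1 + (qw S w n l).2)
  far : r * n ≤ 2 * (nm (qw S w n l - qw S w n 0) : ℝ)

theorem near_qw (S : CA.Dat) (w : Bool) {n : ℕ} (hn : 0 < n) :
    ‖pt (qw S w n 0) - pt (ow w) - n * S.bp‖ ≤ 3 := by
  obtain ⟨h1, h2⟩ := H980.ND.near_bp S n
  have e : qw S w n 0 = S.b n + ow w := by
    unfold H411.Q.qw
    rw [H825.Q.qS_zero S hn]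
  have e2 : pt (S.b n + ow w) - pt (ow w) - n * S.bp = pt (S.b n) - n * S.bp := by
    have : pt (S.b n + ow w) = pt (S.b n) + pt (ow w) := by
      unfold pt
      apply Complex.ext <;> simp
    rw [this]
    ring
  rw [e, e2]
  refine (Complex.norm_le_abs_re_add_abs_im _).trans ?_
  have e3 : (pt (S.b n) - n * S.bp).re = ((S.b n).1 : ℝ) - S.bp.re * n := by
    simp [pt]
    ring
  have e4 : (pt (S.b n) - n * S.bp).im = ((S.b n).2 : ℝ) - S.bp.im * n := by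
    simp [pt]
    ring
  rw [e3, e4]
  linarith

theorem off_rk (j : Fin 4) {u v : ℤ × ℤ} {R : ℤ} (hR : 1 ≤ R) (h : R < nm (u - v)) :
    (rk j).t u ∉ sites (hbox ((rk j).t v) R) := by
  intro hu
  rw [mem_sites_hbox hR] at hu
  have h1 : nm ((rk j).t u - (rk j).t v) ≤ R := by
    rw [H135.nm_le_iff]
    simp only [Prod.fst_sub, Prod.snd_sub]
    omega
  rw [← H135.rk_sub, H135.nm_rk] at h1
  omega

/-- **The side of the base point.** -/
theorem pside (h0 : 0 < θ) (h1 : θ ≤ Real.pi / 3) (hR : RSW (2 * Real.cos θ))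
    (hS : SRSW (2 * Real.cos θ)) (hP : IsLim (2 * Real.cos θ) P) :
    ∃ χp : ℂ → ℝ, Shp Complex.I χp ∧ ∃ α : ℝ, 0 < α ∧ ∃ K₀ : ℝ, 1 ≤ K₀ ∧ ∀ K : ℝ, K₀ ≤ K →
    (∀ (S : CA.Dat) (νp : ℂ) (rp : ℝ), Flat S.P S.bp νp rp → ∀ (w : Bool) (j : Fin 4),
      (∀ z : ℤ × ℤ, pt ((rk j).t z) = Complex.I * conj νp * pt z) → ∀ ρ : ℝ, 0 < ρ →
      ∀ᶠ n : ℕ in atTop, Bq' θ K ((rk j).t (qw S w n 0)) (rN n ρ)
        ((rk j).F fun z => θ * cms (fb χp νp S.bp ρ) (1 / n) (z - ow w))) ∧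
    ∃ c C τ : ℝ, 0 < c ∧ 0 < C ∧ 0 < τ ∧ ∀ (S : CA.Dat) (νp : ℂ) (rp : ℝ), Flat S.P S.bp νp rp →
      ∀ (w : Bool) (r : ℝ), 0 < r → ∀ ρ : ℝ, 0 < ρ → ρ ≤ τ * min rp r → ∀ᶠ n : ℕ in atTop,
      ∀ l l' : ℕ, Gd S w n r l → Gd S w n r l' →
        c ≤ WS θ χp S νp w n l ρ * Nf θ K P (rN n ρ) ∧
        WS θ χp S νp w n l ρ * Nf θ K P (rN n ρ) ≤ C ∧
        |WS θ χp S νp w n l ρ - WS θ χp S νp w n l' ρ| ≤
          C * (ρ / min rp r) ^ α * WS θ χp S νp w n l ρ := by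
  obtain ⟨J, K1, α, hJ, hK1, hα, hmain⟩ := pside0 h0 h1 hR hS hP
  have hK11 : 1 ≤ K1 := by omega
  obtain ⟨K₀, hK₀, hbq⟩ := bq_chp (θ := θ) hJ hK11 h0
  refine ⟨chp J K1, shp_chp hJ hK11, α, hα, K₀, hK₀, fun K hK => ?_⟩
  obtain ⟨r1, hb⟩ := hbq K hK
  obtain ⟨c, C, r0, hc, hC, hm⟩ := hmain K (hK₀.trans hK)
  have hK1r : (4 : ℝ) ≤ K1 := by exact_mod_cast hK1
  refine ⟨fun S νp rp hF w j hj ρ hρ => ?_, c, C * 8 ^ α, 1 / (8 * ((K1 : ℝ) + 8)), hc,
    by positivity, by positivity, fun S νp rp hF w r hr ρ hρ hρτ => ?_⟩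
  · have hlim : Tendsto (fun n : ℕ => (n : ℝ) * ρ) atTop atTop :=
      tendsto_natCast_atTop_atTop.atTop_mul_const hρ
    filter_upwards [eventually_gt_atTop 0, hlim.eventually_ge_atTop r1] with n hn hn1
    exact hb (rk j) νp S.bp (ow w) (qw S w n 0) n ρ hj hF.norm (near_qw S w hn) hn hρ hn1
  · obtain ⟨j, hj, hwin⟩ := H980.ND.win_p S hF
    have hmin : 0 < min rp r := lt_min hF.pos hr
    have hlim : Tendsto (fun n : ℕ => (n : ℝ) * ρ) atTop atTop :=
      tendsto_natCast_atTop_atTop.atTop_mul_const hρ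
    have hlim2 : Tendsto (fun n : ℕ => min rp r * (n : ℝ)) atTop atTop :=
      Tendsto.const_mul_atTop hmin tendsto_natCast_atTop_atTop
    filter_upwards [hwin w, eventually_gt_atTop 0, hlim.eventually_ge_atTop r0,
      hlim2.eventually_ge_atTop 32] with n hn hn0 hn1 hn2 l l' hl hl'
    have hn0' : (0 : ℝ) < n := by exact_mod_cast hn0
    obtain ⟨R, hRd⟩ : ∃ R : ℤ, R = ⌊min rp r * n / 4⌋ := ⟨_, rfl⟩
    have a1 : (R : ℝ) ≤ min rp r * n / 4 := by rw [hRd]; exact Int.floor_le _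
    have a2 : min rp r * n / 4 < R + 1 := by rw [hRd]; exact Int.lt_floor_add_one _
    have a3 : min rp r * n / 8 ≤ R := by linarith
    have hR1 : 1 ≤ R := by
      have : (1 : ℝ) ≤ R := by linarith
      exact_mod_cast this
    have hR0 : (0 : ℝ) < R := by exact_mod_cast (by omega : 0 < R)
    have hflt := hn R hR1 (by
      have := mul_le_mul_of_nonneg_right (min_le_left rp r) hn0'.le
      linarith)
    have htop : ((K1 : ℝ) + 8) * (n * ρ) ≤ R := by
      refine le_trans ?_ a3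
      have h5 : ρ * (8 * ((K1 : ℝ) + 8)) ≤ min rp r := by
        have := mul_le_mul_of_nonneg_right hρτ (by positivity : 0 ≤ 8 * ((K1 : ℝ) + 8))
        calc ρ * (8 * ((K1 : ℝ) + 8)) ≤ 1 / (8 * ((K1 : ℝ) + 8)) * min rp r *
              (8 * ((K1 : ℝ) + 8)) := this
          _ = min rp r := by field_simp
      have := mul_le_mul_of_nonneg_right h5 hn0'.le
      linarith
    have hSit : Sit K1 r0 (qw S w n) (Dw S w n) (rk j) νp S.bp (ow w) n ρ R :=
      ⟨poly_w S w hn0, encl_w S w hn0, hj, hF.norm, near_qw S w hn0, hn0, hρ, hn1, htop, hflt⟩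
    have hfar : ∀ l, Gd S w n r l → Far (qw S w n) (rk j) R l := fun l hl => by
      refine ⟨hl.pos, hl.lt, Int.even_iff.1 hl.even, off_rk j hR1 ?_⟩
      have h5 := hl.far
      have h6 := mul_le_mul_of_nonneg_right (min_le_right rp r) hn0'.le
      have h7 : 0 < min rp r * n := by positivity
      have : (R : ℝ) < nm (qw S w n l - qw S w n 0) := by linarith
      exact_mod_cast this
    obtain ⟨g1, g2, g3⟩ := hm (S.l * n) (qw S w n) (Dw S w n) (rk j) νp S.bp (ow w) n ρ R hSit l l'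
      (hfar l hl) (hfar l' hl')
    rw [WS_eq, WS_eq]
    have h8 : (1 : ℝ) ≤ 8 ^ α := Real.one_le_rpow (by norm_num) hα.le
    have hWpos : 0 ≤ Wp θ (chp J K1) νp S.bp ρ n (ow w) (qw S w n) (Dw S w n) l := by
      by_contra hcon
      push Not at hcon
      have := QB.Nf_pos θ K P (⌈(n : ℝ) * ρ⌉ + 1)
      nlinarith
    refine ⟨g1, g2.trans (le_mul_of_one_le_right hC.le h8), g3.trans ?_⟩
    have h9 : ((n * ρ) / R : ℝ) ^ α ≤ 8 ^ α * (ρ / min rp r) ^ α := by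
      rw [← Real.mul_rpow (by norm_num) (by positivity)]
      refine Real.rpow_le_rpow (by positivity) ?_ hα.le
      rw [div_le_iff₀ hR0]
      have h10 : (n : ℝ) * ρ = 8 * (ρ / min rp r) * (min rp r * n / 8) := by field_simp
      rw [h10]
      exact mul_le_mul_of_nonneg_left a3 (by positivity)
    calc C * ((n * ρ) / R : ℝ) ^ α * Wp θ (chp J K1) νp S.bp ρ n (ow w) (qw S w n) (Dw S w n) l ≤
        C * (8 ^ α * (ρ / min rp r) ^ α) *
          Wp θ (chp J K1) νp S.bp ρ n (ow w) (qw S w n) (Dw S w n) l :=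
          mul_le_mul_of_nonneg_right (mul_le_mul_of_nonneg_left h9 hC.le) hWpos
      _ = _ := by ring

end Vale.Agent.P167.H208.SH
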