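import Vale.Agent.P167.H208.SH.Cell
import Vale.Agent.P167.H436.ND.Defs
import Vale.Agent.P167.QB.Brc
import Mathlib.Analysis.Calculus.BumpFunction.Normed

/-!
# P167, general `q`, block Q-ND / CONT: the multi-scale shape and its cell masses in a moved window

`ch0`: a smooth bump of mass one in the closed ball of radius `1 / 16` around `3 i / 4`. `chp J K`: the mean
of the `J` bumps of the scales `K ^ i / K ^ (J - 1)`.
-/

open Set Metric Filter Topology MeasureTheory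
open scoped ComplexConjugate ContDiff

namespace Vale.Agent.P167.H208.SH

open Vale.Agent.P167.CA (cms cl cs mem_cl cms_eq measurableSet_cl)
open Vale.Agent.P167.H542.Dt (vol_cl cms_ne cms_abs_le)
open Vale.Agent.P167.H411.Q (fb fb_eq rot shp_rot)
open Vale.Agent.P167.H411.B7 (Shp scb integral_scale)
open Vale.Agent.P167.E6 (pt)
open Vale.Agent.P167.H436.ND (Bp Kr)
open Vale.Agent.P167.H135 (Mov)

/-! ### cell masses -/

/-- The sum of the cell masses. -/
theorem finsum_cms {f : ℂ → ℝ} (hf : Integrable f) {R : ℝ} (hR : ∀ u, f u ≠ 0 → ‖u‖ ≤ R) {n : ℕ}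
    (hn : 0 < n) : ∑ᶠ s, cms f (1 / n) s = ∫ u, f u := by
  classical
  have hn' : (0 : ℝ) < n := by exact_mod_cast hn
  obtain ⟨N, hN⟩ : ∃ N : ℤ, R * n + 1 ≤ N := ⟨⌈R * n + 1⌉, Int.le_ceil _⟩
  have hbox : ∀ u, f u ≠ 0 → cs n u ∈ (Finset.Icc (-N) N ×ˢ Finset.Icc (-N) N : Finset (ℤ × ℤ)) := by
    intro u hu
    have h3 := hR u hu
    have b1 := abs_le.1 ((Complex.abs_re_le_norm u).trans h3)
    have b2 := abs_le.1 ((Complex.abs_im_le_norm u).trans h3)
    have a1 := Int.floor_le (u.re * n)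
    have a2 := Int.lt_floor_add_one (u.re * n)
    have a3 := Int.floor_le (u.im * n)
    have a4 := Int.lt_floor_add_one (u.im * n)
    rw [Finset.mem_product, Finset.mem_Icc, Finset.mem_Icc]
    have k1 : (cs n u).1 = ⌊u.re * n⌋ + 1 := rfl
    have k2 : (cs n u).2 = ⌊u.im * n⌋ + 1 := rfl
    rw [k1, k2]
    refine ⟨⟨?_, ?_⟩, ?_, ?_⟩
    · have : (-N : ℝ) ≤ ⌊u.re * n⌋ + 1 := by nlinarith
      exact_mod_cast this
    · have : (⌊u.re * n⌋ + 1 : ℝ) ≤ N := by nlinarith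
      exact_mod_cast this
    · have : (-N : ℝ) ≤ ⌊u.im * n⌋ + 1 := by nlinarith
      exact_mod_cast this
    · have : (⌊u.im * n⌋ + 1 : ℝ) ≤ N := by nlinarith
      exact_mod_cast this
  have hsup : Function.support (fun s => cms f (1 / n) s) ⊆
      ((Finset.Icc (-N) N ×ˢ Finset.Icc (-N) N : Finset (ℤ × ℤ)) : Set (ℤ × ℤ)) := by
    intro w hw
    obtain ⟨u, hu, h1⟩ := cms_ne hw
    have h2 := hbox u h1
    rwa [mem_cl.1 hu] at h2
  rw [finsum_eq_sum_of_support_subset _ hsup]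
  have h5 : ∑ w ∈ (Finset.Icc (-N) N ×ˢ Finset.Icc (-N) N : Finset (ℤ × ℤ)), cms f (1 / n) w =
      ∫ u in ⋃ w ∈ (Finset.Icc (-N) N ×ˢ Finset.Icc (-N) N : Finset (ℤ × ℤ)), cl n w, f u := by
    rw [integral_biUnion_finset]
    · exact Finset.sum_congr rfl fun w _ => cms_eq f n w
    · intro w _
      exact measurableSet_cl n w
    · intro w _ w' _ hne
      rw [Function.onFun, Set.disjoint_left]
      intro x hx hx'
      rw [mem_cl] at hx hx'
      exact hne (hx.symm.trans hx')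
    · intro w _
      exact hf.integrableOn
  rw [h5, setIntegral_eq_integral_of_forall_compl_eq_zero]
  intro x hx
  by_contra hne
  apply hx
  rw [mem_iUnion₂]
  exact ⟨cs n x, hbox x hne, mem_cl.2 rfl⟩

/-- The position of the cells of nonzero mass. -/
theorem cms_supp2 {χ : ℂ → ℝ} {ν : ℂ} (hν : ‖ν‖ = 1) {c : ℂ} {η : ℝ} (hη : 0 < η) {n : ℕ}
    (hn : 0 < n) {s : ℤ × ℤ} (hs : cms (fb χ ν c η) (1 / n) s ≠ 0) :
    ∃ u, χ u ≠ 0 ∧ ‖Complex.I * conj ν * (pt s - n * c) - ((n * η : ℝ) : ℂ) * u‖ ≤ 2 := by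
  have hηC : (η : ℂ) ≠ 0 := by exact_mod_cast hη.ne'
  obtain ⟨z, hz, h1⟩ := cms_ne hs
  refine ⟨Complex.I * conj ν * (z - c) / η, fun h0 => h1 (by unfold fb; rw [h0, zero_div]), ?_⟩
  have e : Complex.I * conj ν * (pt s - n * c) -
      ((n * η : ℝ) : ℂ) * (Complex.I * conj ν * (z - c) / η) =
      -(Complex.I * conj ν * (n * z - pt s)) := by
    push_cast
    field_simp
    ring
  rw [e, norm_neg, norm_mul, norm_mul, Complex.norm_I, RCLike.norm_conj, hν, one_mul, one_mul]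
  exact near_cl hn hz

theorem fb_ne {χ : ℂ → ℝ} {ν : ℂ} (hν : ‖ν‖ = 1) {c z : ℂ} {η B : ℝ} (hη : 0 < η)
    (hB : ∀ u, χ u ≠ 0 → ‖u‖ ≤ B) (h : fb χ ν c η z ≠ 0) : ‖z‖ ≤ ‖c‖ + B * η := by
  have h1 : χ (Complex.I * conj ν * (z - c) / η) ≠ 0 := fun h0 => h (by unfold fb; rw [h0, zero_div])
  have h2 := hB _ h1
  rw [norm_div, norm_mul, norm_mul, Complex.norm_I, RCLike.norm_conj, hν,
    one_mul, one_mul, Complex.norm_real, Real.norm_eq_abs, abs_of_pos hη, div_le_iff₀ hη] at h2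
  have h3 := norm_add_le (z - c) c
  rw [sub_add_cancel] at h3
  linarith

theorem integral_fb {χ : ℂ → ℝ} (h : Shp Complex.I χ) {ν : ℂ} (hν : ‖ν‖ = 1) (c : ℂ) {η : ℝ}
    (hη : 0 < η) : ∫ z, fb χ ν c η z = 1 := by
  rw [fb_eq]
  unfold scb
  rw [integral_scale _ c hη, (shp_rot h hν).mass]

/-! ### the shape -/

/-- The bump. -/
noncomputable def bm : ContDiffBump (((3 / 4 : ℝ) : ℂ) * Complex.I) where
  rIn := 1 / 32
  rOut := 1 / 16
  rIn_pos := by norm_num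
  rIn_lt_rOut := by norm_num

/-- The basic shape. -/
noncomputable def ch0 : ℂ → ℝ := bm.normed volume

theorem ch0_supp {u : ℂ} (h : ch0 u ≠ 0) : ‖u - ((3 / 4 : ℝ) : ℂ) * Complex.I‖ ≤ 1 / 16 := by
  have h1 : u ∈ Function.support (bm.normed volume) := h
  rw [ContDiffBump.support_normed_eq, mem_ball_iff_norm] at h1
  exact h1.le

theorem ball_im {u : ℂ} (h : ‖u - ((3 / 4 : ℝ) : ℂ) * Complex.I‖ ≤ 1 / 16) :
    |u.re| ≤ 1 / 16 ∧ 11 / 16 ≤ u.im ∧ u.im ≤ 13 / 16 ∧ ‖u‖ ≤ 13 / 16 := by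
  have h1 := (Complex.abs_re_le_norm _).trans h
  have h2 := abs_le.1 ((Complex.abs_im_le_norm _).trans h)
  have e1 : (u - ((3 / 4 : ℝ) : ℂ) * Complex.I).re = u.re := by simp
  have e2 : (u - ((3 / 4 : ℝ) : ℂ) * Complex.I).im = u.im - 3 / 4 := by simp
  rw [e1] at h1
  rw [e2] at h2
  refine ⟨h1, by linarith, by linarith, ?_⟩
  have h3 := norm_add_le (u - ((3 / 4 : ℝ) : ℂ) * Complex.I) (((3 / 4 : ℝ) : ℂ) * Complex.I)
  rw [sub_add_cancel, norm_mul, Complex.norm_I, mul_one, Complex.norm_real, Real.norm_eq_abs,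
    abs_of_pos (by norm_num)] at h3
  linarith

theorem shp_ch0 : Shp Complex.I ch0 where
  smooth := bm.contDiff_normed
  supp := by
    intro u hu
    unfold ch0 at hu
    rw [ContDiffBump.tsupport_normed_eq, mem_closedBall_iff_norm] at hu
    obtain ⟨h1, h2, h3, h4⟩ := ball_im hu
    refine ⟨?_, ?_⟩
    · rw [mem_closedBall_zero_iff]; linarith
    · show 0 < (u * conj Complex.I).re
      rw [Complex.conj_I]
      simp
      linarith
  nonneg z := bm.nonneg_normed z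
  mass := bm.integral_normed

/-- The bound of the basic shape. -/
noncomputable def B0 : ℝ := (shp_bd shp_ch0).choose

theorem B0_pos : 0 < B0 := (shp_bd shp_ch0).choose_spec.1

theorem ch0_le (u : ℂ) : |ch0 u| ≤ B0 := (shp_bd shp_ch0).choose_spec.2 u

/-- The ratio of the scales. -/
noncomputable def rsc (J : ℕ) (K : ℤ) (i : ℕ) : ℝ := (K : ℝ) ^ i / (K : ℝ) ^ (J - 1)

/-- The multi-scale shape. -/
noncomputable def chp (J : ℕ) (K : ℤ) (u : ℂ) : ℝ :=
  ∑ i : Fin J, (1 / (J : ℝ)) * (ch0 (u / rsc J K i) / rsc J K i ^ 2)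

theorem rsc_pos {J : ℕ} {K : ℤ} (hK : 1 ≤ K) (i : ℕ) : 0 < rsc J K i := by
  have : (0 : ℝ) < K := by exact_mod_cast (by omega : 0 < K)
  unfold rsc
  positivity

theorem rsc_le {J : ℕ} {K : ℤ} (hK : 1 ≤ K) (i : Fin J) : rsc J K i ≤ 1 := by
  have h1 : (1 : ℝ) ≤ K := by exact_mod_cast hK
  unfold rsc
  rw [div_le_one (by positivity)]
  exact pow_le_pow_right₀ h1 (by have := i.2; omega)

theorem rsc_ge {J : ℕ} {K : ℤ} (hK : 1 ≤ K) (i : ℕ) : 1 / (K : ℝ) ^ (J - 1) ≤ rsc J K i := by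
  have h1 : (1 : ℝ) ≤ K := by exact_mod_cast hK
  unfold rsc
  exact div_le_div_of_nonneg_right (one_le_pow₀ h1) (by positivity)

theorem chp_ne {J : ℕ} {K : ℤ} {u : ℂ} (h : chp J K u ≠ 0) :
    ∃ i : Fin J, ch0 (u / rsc J K i) ≠ 0 := by
  by_contra hcon
  push Not at hcon
  apply h
  unfold chp
  exact Finset.sum_eq_zero fun i _ => by rw [hcon i, zero_div, mul_zero]

theorem chp_supp {J : ℕ} {K : ℤ} (hK : 1 ≤ K) {u : ℂ} (h : chp J K u ≠ 0) :
    ‖u‖ ≤ 1 ∧ 11 / 16 / (K : ℝ) ^ (J - 1) ≤ u.im := by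
  obtain ⟨i, hi⟩ := chp_ne h
  obtain ⟨h1, h2, h3, h4⟩ := ball_im (ch0_supp hi)
  have hs := rsc_pos (J := J) hK i
  have hs1 := rsc_le hK i
  have hs2 := rsc_ge (J := J) hK i
  rw [norm_div, Complex.norm_real, Real.norm_eq_abs, abs_of_pos hs, div_le_iff₀ hs] at h4
  rw [Complex.div_ofReal_im, le_div_iff₀ hs] at h2
  constructor
  · linarith
  · have : 11 / 16 / (K : ℝ) ^ (J - 1) = 11 / 16 * (1 / (K : ℝ) ^ (J - 1)) := by ring
    rw [this]
    linarith

theorem shp_chp {J : ℕ} {K : ℤ} (hJ : 0 < J) (hK : 1 ≤ K) : Shp Complex.I (chp J K) where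
  smooth := by
    unfold chp
    refine ContDiff.sum fun i _ => ?_
    exact contDiff_const.mul ((shp_ch0.smooth.comp (by fun_prop)).div_const _)
  supp := by
    have hcl : IsClosed {u : ℂ | ‖u‖ ≤ 1 ∧ 11 / 16 / (K : ℝ) ^ (J - 1) ≤ u.im} :=
      (isClosed_le continuous_norm continuous_const).inter
        (isClosed_le continuous_const Complex.continuous_im)
    have hsub : tsupport (chp J K) ⊆ {u : ℂ | ‖u‖ ≤ 1 ∧ 11 / 16 / (K : ℝ) ^ (J - 1) ≤ u.im} :=
      closure_minimal (fun u hu => chp_supp hK hu) hcl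
    intro u hu
    obtain ⟨h1, h2⟩ := hsub hu
    have h3 : (0 : ℝ) < K := by exact_mod_cast (by omega : 0 < K)
    have h4 : 0 < 11 / 16 / (K : ℝ) ^ (J - 1) := by positivity
    refine ⟨by rwa [mem_closedBall_zero_iff], ?_⟩
    show 0 < (u * conj Complex.I).re
    rw [Complex.conj_I]
    simp
    linarith
  nonneg z := by
    unfold chp
    exact Finset.sum_nonneg fun i _ => mul_nonneg (by positivity)
      (div_nonneg (shp_ch0.nonneg _) (by positivity))
  mass := by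
    unfold chp
    have h0 : ∫ u : ℂ, ∑ i : Fin J, (1 / (J : ℝ)) * (ch0 (u / rsc J K i) / rsc J K i ^ 2) =
        ∑ i : Fin J, ∫ u : ℂ, (1 / (J : ℝ)) * (ch0 (u / rsc J K i) / rsc J K i ^ 2) :=
      integral_finsetSum _ fun i _ =>
        (int_f0 shp_ch0.smooth.continuous shp_ch0.compact (rsc_pos hK i)).const_mul _
    rw [h0]
    have h1 : ∀ i : Fin J, ∫ u : ℂ, (1 / (J : ℝ)) * (ch0 (u / rsc J K i) / rsc J K i ^ 2) =
        1 / (J : ℝ) := by
      intro i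
      rw [integral_const_mul]
      have h6 := integral_scale ch0 0 (rsc_pos (J := J) hK i)
      simp only [sub_zero] at h6
      rw [h6, shp_ch0.mass, mul_one]
    rw [Finset.sum_congr rfl fun i _ => h1 i, Finset.sum_const, Finset.card_univ, Fintype.card_fin,
      nsmul_eq_mul]
    have : (J : ℝ) ≠ 0 := by positivity
    field_simp

theorem fb_chp {J : ℕ} {K : ℤ} (hK : 1 ≤ K) (ν c : ℂ) {ρ : ℝ} (hρ : 0 < ρ) (z : ℂ) :
    fb (chp J K) ν c ρ z = ∑ i : Fin J, (1 / (J : ℝ)) * fb ch0 ν c (ρ * rsc J K i) z := by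
  unfold fb chp
  rw [Finset.sum_div]
  refine Finset.sum_congr rfl fun i _ => ?_
  have hs := rsc_pos (J := J) hK i
  have h1 : (rsc J K i : ℂ) ≠ 0 := by exact_mod_cast hs.ne'
  have h2 : (ρ : ℂ) ≠ 0 := by exact_mod_cast hρ.ne'
  have e : Complex.I * conj ν * (z - c) / ρ / (rsc J K i : ℂ) =
      Complex.I * conj ν * (z - c) / ((ρ * rsc J K i : ℝ) : ℂ) := by
    push_cast
    rw [div_div]
  rw [e]
  field_simp

theorem cms_chp {J : ℕ} {K : ℤ} (hK : 1 ≤ K) {ν : ℂ} (hν : ‖ν‖ = 1) (c : ℂ) {ρ : ℝ} (hρ : 0 < ρ)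
    (δ : ℝ) (s : ℤ × ℤ) : cms (fb (chp J K) ν c ρ) δ s =
      ∑ i : Fin J, (1 / (J : ℝ)) * cms (fb ch0 ν c (ρ * rsc J K i)) δ s := by
  have e : fb (chp J K) ν c ρ = fun z => ∑ i : Fin J, (1 / (J : ℝ)) * fb ch0 ν c (ρ * rsc J K i) z :=
    funext fun z => fb_chp hK ν c hρ z
  rw [e]
  unfold CA.cms
  rw [integral_finsetSum]
  · exact Finset.sum_congr rfl fun i _ => integral_const_mul _ _
  · intro i _
    exact ((int_fb shp_ch0.smooth.continuous shp_ch0.compact hν c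
      (mul_pos hρ (rsc_pos hK i))).const_mul _).integrableOn

/-! ### the moved bumps -/

theorem pt_sub' (z w : ℤ × ℤ) : pt (z - w) = pt z - pt w := by
  unfold pt
  apply Complex.ext <;> simp

/-- The movement `M` rotates the inner normal `ν` to `i`. -/
def RotN (M : Mov) (ν : ℂ) : Prop := ∀ z, pt (M.t z) = Complex.I * conj ν * pt z

/-- The support of the moved cell masses. -/
theorem mv_supp {χ : ℂ → ℝ} {M : Mov} {ν : ℂ} (hM : RotN M ν) (hν : ‖ν‖ = 1) {o q0 : ℤ × ℤ} {c : ℂ}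
    {η K1 : ℝ} (hη : 0 < η) {n : ℕ} (hn : 0 < n) (h1 : ‖pt q0 - pt o - n * c‖ ≤ K1) {z : ℤ × ℤ}
    (hz : M.F (fun s => cms (fb χ ν c η) (1 / n) (s - o)) z ≠ 0) :
    ∃ u, χ u ≠ 0 ∧ ‖pt z - pt (M.t q0) - ((n * η : ℝ) : ℂ) * u‖ ≤ K1 + 2 := by
  obtain ⟨u, hu, h2⟩ := cms_supp2 (χ := χ) (s := M.t.symm z - o) hν hη hn hz
  refine ⟨u, hu, ?_⟩
  have e1 : pt z = Complex.I * conj ν * pt (M.t.symm z) := by
    rw [← hM, Equiv.apply_symm_apply]
  have e2 : pt z - pt (M.t q0) - ((n * η : ℝ) : ℂ) * u =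
      (Complex.I * conj ν * (pt (M.t.symm z - o) - n * c) - ((n * η : ℝ) : ℂ) * u) -
        Complex.I * conj ν * (pt q0 - pt o - n * c) := by
    rw [e1, hM, pt_sub']
    ring
  rw [e2]
  refine (norm_sub_le _ _).trans ?_
  rw [norm_mul (Complex.I * conj ν), norm_mul, Complex.norm_I, RCLike.norm_conj, hν, one_mul, one_mul]
  linarith

/-- **The moved bumps.** -/
theorem bp_moved {M : Mov} {ν : ℂ} (hM : RotN M ν) (hν : ‖ν‖ = 1) {o q0 : ℤ × ℤ} {c : ℂ}
    {η K1 : ℝ} (hη : 0 < η) {n : ℕ} (hn : 0 < n) (h1 : ‖pt q0 - pt o - n * c‖ ≤ K1) {a : ℤ}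
    (ha0 : 0 < a) (ha : 16 * (K1 + 2) ≤ a) (h2 : (2 : ℝ) * a ≤ n * η)
    (h3 : n * η ≤ (2 : ℝ) * a + a / 32) :
    Bp B0 (M.t q0) a (M.F fun s => cms (fb ch0 ν c η) (1 / n) (s - o)) := by
  have hn' : (0 : ℝ) < n := by exact_mod_cast hn
  have har : (0 : ℝ) < a := by exact_mod_cast ha0
  have hr : 0 < (n : ℝ) * η := by positivity
  refine ⟨fun z => ?_, fun z => ?_, fun z hz => ?_, ?_⟩
  · show 0 ≤ cms (fb ch0 ν c η) (1 / n) _
    rw [cms_eq]
    exact setIntegral_nonneg (measurableSet_cl _ _) fun u _ =>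
      div_nonneg (shp_ch0.nonneg _) (by positivity)
  · show cms (fb ch0 ν c η) (1 / n) _ ≤ _
    have h4 := cms_abs_le (f := fb ch0 ν c η) (M := B0 / η ^ 2) (fun z => ?_) hn (M.t.symm z - o)
    · refine (le_abs_self _).trans (h4.trans ?_)
      have e : B0 / η ^ 2 / (n : ℝ) ^ 2 = B0 / (n * η) ^ 2 := by field_simp
      rw [e]
      exact div_le_div_of_nonneg_left B0_pos.le (by positivity)
        (pow_le_pow_left₀ har.le (by linarith) 2)
    · unfold fb
      rw [abs_div, abs_of_pos (by positivity : (0 : ℝ) < η ^ 2)]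
      exact div_le_div_of_nonneg_right (ch0_le _) (by positivity)
  · obtain ⟨u, hu, h4⟩ := mv_supp hM hν hη hn h1 hz
    obtain ⟨k1, k2, k3, k4⟩ := ball_im (ch0_supp hu)
    have k1' := abs_le.1 k1
    have r1 := abs_le.1 ((Complex.abs_re_le_norm _).trans h4)
    have i1 := abs_le.1 ((Complex.abs_im_le_norm _).trans h4)
    have e1 : (pt z - pt (M.t q0) - ((n * η : ℝ) : ℂ) * u).re =
        z.1 - (M.t q0).1 - n * η * u.re := by
      simp [pt]
    have e2 : (pt z - pt (M.t q0) - ((n * η : ℝ) : ℂ) * u).im =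
        z.2 - (M.t q0).2 - n * η * u.im := by
      simp [pt]
    rw [e1] at r1
    rw [e2] at i1
    have b1 : n * η * u.re ≤ (2 * a + a / 32) * (1 / 16) := by
      calc n * η * u.re ≤ n * η * (1 / 16) := mul_le_mul_of_nonneg_left k1'.2 hr.le
        _ ≤ _ := mul_le_mul_of_nonneg_right h3 (by norm_num)
    have b2 : -((2 * a + a / 32) * (1 / 16)) ≤ n * η * u.re := by
      have : n * η * (-(1 / 16)) ≤ n * η * u.re := mul_le_mul_of_nonneg_left k1'.1 hr.le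
      nlinarith
    have b3 : n * η * u.im ≤ (2 * a + a / 32) * (13 / 16) := by
      calc n * η * u.im ≤ n * η * (13 / 16) := mul_le_mul_of_nonneg_left k3 hr.le
        _ ≤ _ := mul_le_mul_of_nonneg_right h3 (by norm_num)
    have b4 : 2 * a * (11 / 16) ≤ n * η * u.im := by
      calc 2 * (a : ℝ) * (11 / 16) ≤ n * η * (11 / 16) :=
            mul_le_mul_of_nonneg_right h2 (by norm_num)
        _ ≤ _ := mul_le_mul_of_nonneg_left k2 hr.le
    refine ⟨?_, ?_, ?_, ?_⟩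
    · have : -(a : ℝ) ≤ 4 * ((z.1 : ℝ) - (M.t q0).1) := by linarith
      exact_mod_cast this
    · have : 4 * ((z.1 : ℝ) - (M.t q0).1) ≤ a := by linarith
      exact_mod_cast this
    · have : 5 * (a : ℝ) ≤ 4 * ((z.2 : ℝ) - (M.t q0).2) := by linarith
      exact_mod_cast this
    · have : 4 * ((z.2 : ℝ) - (M.t q0).2) ≤ 7 * a := by linarith
      exact_mod_cast this
  · have e : ∑ᶠ z, M.F (fun s => cms (fb ch0 ν c η) (1 / n) (s - o)) z =
        ∑ᶠ s, cms (fb ch0 ν c η) (1 / n) s :=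
      finsum_comp_equiv (f := fun s => cms (fb ch0 ν c η) (1 / n) s)
        (M.t.symm.trans (Equiv.subRight o))
    rw [e, finsum_cms (int_fb shp_ch0.smooth.continuous shp_ch0.compact hν c hη)
      (R := ‖c‖ + 1 * η) (fun u hu => fb_ne hν hη (fun v hv => ?_) hu) hn,
      integral_fb shp_ch0 hν c hη]
    have := (ball_im (ch0_supp hv)).2.2.2
    linarith

end Vale.Agent.P167.H208.SH
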